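import Mathlib
import Vale.Agent.P146.Bd3.B2
import Vale.Agent.P146.Bd3.B5
import Vale.Agent.P146.Bdl.B11
import Vale.Agent.P146.Bdl.B42
import Vale.Agent.P146.Bd3.B4

set_option linter.all false

section

/-!
# P146, Rt: a better rate of the lower bound: definitions

The strengths below the level `d` are zero, hence the values at the level `0` are deterministic.
-/

open MeasureTheory ProbabilityTheory Filter Topology

namespace Vale.Agent.P146.Ub.Ld

open Vale.Agent.P157 Vale.Agent.P157.Lv Vale.Agent.P157.Lv.Sy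
open Vale.Agent.P157.Par (Path Exponents incr spinPart)
open Vale.Agent.P146 (Pair)

/-- The error of the concentration of the field `j`. -/
noncomputable def ger (n K d : ℕ) (m : ℕ → ℝ) (β : ℝ) (N : ℕ) (s : ℕ → ℝ) (t : ℝ) (j : ℕ) : ℝ :=
  if j ≤ K then 1 / (N * t) * (2 * dl n K d m β N s t j + 3 * β ^ 2 + Real.log 2 / m 1) else 0

/-- The sum of the errors. -/
noncomputable def ges (n K d : ℕ) (m : ℕ → ℝ) (β : ℝ) (N : ℕ) (s : ℕ → ℝ) (t : ℝ) : ℝ :=
  ∑ j ∈ Finset.Ico d (K + 1), ger n K d m β N s t j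

/-- The total error of the overlaps. -/
noncomputable def gT (K : ℕ) (σ E : ℝ) : ℝ :=
  (√(1 + Real.log ((K : ℝ) + 1)) * (2 + 16 * ((K : ℝ) + 1) * E / σ) + 4) / ((K : ℝ) + 1)

section gen

variable {ι X : Type} [Fintype ι] [DecidableEq ι] [Fintype X] [DecidableEq X] [Nonempty X] {N : ℕ}

/-- `w_k(z, x) = T_k(ε)(z) ε(x)` -/
noncomputable def gw (S : Sy ι X) (ε : X → ℝ) (k : ℕ) : (ι → ℝ) → X → ℝ :=
  fun z x => S.T k (fun _ y => ε y) z * ε x

/-- the variance of `u_l` -/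
noncomputable def gV (S : Sy ι X) (φ : X → Fin N → ℝ) (l : ℕ) : ℝ :=
  S.Ex (fun z x => (Fld.uu S φ l z x - S.Rl φ l) ^ 2)

/-- the second moment of `u_l` -/
noncomputable def gW (S : Sy ι X) (φ : X → Fin N → ℝ) (l : ℕ) : ℝ :=
  S.Ex (fun z x => Fld.uu S φ l z x * Fld.uu S φ l z x)

/-- the second moment of the overlap -/
noncomputable def gQ (S : Sy ι X) (φ : X → Fin N → ℝ) (l : ℕ) : ℝ :=
  S.pairEx l (fun x x' => Rov φ x x' ^ 2)

end gen

end Vale.Agent.P146.Ub.Ld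
end

section

/-!
# P146, Rt: the average of the errors over the grid
-/

open MeasureTheory ProbabilityTheory Filter Topology

namespace Vale.Agent.P146.Ub.Ld

set_option linter.unusedSectionVars false

open Vale.Agent.P157 Vale.Agent.P157.Lv Vale.Agent.P157.Lv.Sy Vale.Agent.P157.Lv.Fld
open Vale.Agent.P157.Par (Path Exponents incr spinPart)
open Vale.Agent.P146 (Pair freeEnergy disorder)
open Vale.Agent.P146.Sk (PSK)

section Step

variable {n K N d : ℕ} {m s R : ℕ → ℝ} {β θ : ℝ}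

theorem gavg_ct_lt {j : ℕ} (hj : j < d) (s : ℕ → ℝ) (y : ℝ) :
    ct d (Function.update s j y) = ct d s := by
  funext l
  unfold ct
  split_ifs with h
  · rfl
  · rw [Function.update_of_ne (by omega)]

theorem gavg_ct_ge {j : ℕ} (hj : d ≤ j) (s : ℕ → ℝ) (y : ℝ) :
    ct d (Function.update s j y) = Function.update (ct d s) j y := by
  funext l
  rcases eq_or_ne l j with h | h
  · subst h
    rw [ct_ge hj, Function.update_self, Function.update_self]
  · rw [Function.update_of_ne h]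
    unfold ct
    rw [Function.update_of_ne h]

theorem gavg_ct_nonneg (hs : ∀ l ≤ K, 0 ≤ s l) : ∀ l ≤ K, 0 ≤ ct d s l := by
  intro l hl
  unfold ct
  split_ifs with h
  · exact le_rfl
  · exact hs l hl

/-- The average of the second differences. -/
theorem gavg_dl {M : ℕ} {β : ℝ} (hd : d ≤ K) (hN : N ≤ n) (h0 : 0 < N)
    (hm : Exponents K m) (hM : 0 < M) {σ t : ℝ} (ht : 0 < t) (hσ : t ≤ σ) {j : ℕ} (hdj : d ≤ j)
    (hj : j ≤ K) :
    ∑ k : Fin (K + 1) → Fin M, dl n K d m β N (ct d (gp σ t k)) t j ≤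
      (M : ℝ) ^ K * (t * (N * (σ + M * t))) := by
  have h1 := avg_dl (K := K) (A := fun s => AN n K d m β N (ct d s))
      (C := fun j s => if j < d then 0 else (SN n K d m β N (ct d s)).Ex (gx hN j)) hM ht hσ
      (Nat.cast_nonneg N)
      (fun s j hj x => by
        split_ifs with h
        · rw [mul_zero, add_zero, gavg_ct_lt h]
        · rw [gavg_ct_ge (not_lt.1 h)]
          have h2 := AN_tangent (β := β) (N := N) hd hN hm (ct d s) hj x
          rwa [ct_ge (not_lt.1 h)] at h2)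
      (fun s hs j hj => by
        split_ifs with h
        · exact ⟨le_rfl, mul_nonneg (Nat.cast_nonneg N) (hs j hj)⟩
        · have h2 := AN_slope (β := β) hd hN h0 hm (gavg_ct_nonneg (d := d) hs) hj
          rwa [ct_ge (not_lt.1 h)] at h2) hj
  refine le_trans (le_of_eq (Finset.sum_congr rfl fun k _ => ?_)) h1
  rw [dl, gavg_ct_ge hdj, gavg_ct_ge hdj, ct_ge hdj]

theorem gavg_num {l N B x y c : ℝ} (hl : 1 ≤ l) (hN : 0 < N) (hB : 0 ≤ B) (hc0 : 0 ≤ c)
    (hc : c ≤ l) (hx : x ≤ c * (1 / (2 * l ^ 3) * N / l ^ 3)) (hy : y ≤ 1) :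
    1 / (N * (1 / (2 * l ^ 3))) * (2 * x) + 1 / (N * (1 / (2 * l ^ 3))) * (c * (B + l * y)) ≤
      2 / l ^ 2 + 2 * (B + 1) * l ^ 5 / N := by
  have hl0 : 0 < l := by linarith
  have e1 : 1 / (N * (1 / (2 * l ^ 3))) = 2 * l ^ 3 / N := by
    field_simp
  rw [e1]
  have h1 : 2 * l ^ 3 / N * (2 * x) ≤
      2 * l ^ 3 / N * (2 * (l * (1 / (2 * l ^ 3) * N / l ^ 3))) := by
    refine mul_le_mul_of_nonneg_left ?_ (by positivity)
    have : c * (1 / (2 * l ^ 3) * N / l ^ 3) ≤ l * (1 / (2 * l ^ 3) * N / l ^ 3) :=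
      mul_le_mul_of_nonneg_right hc (by positivity)
    linarith
  have e2 : 2 * l ^ 3 / N * (2 * (l * (1 / (2 * l ^ 3) * N / l ^ 3))) = 2 / l ^ 2 := by
    field_simp
  have h2 : c * (B + l * y) ≤ l * (l * (B + 1)) := by
    have h3 : B + l * y ≤ l * (B + 1) := by
      have h4 : l * y ≤ l * 1 := mul_le_mul_of_nonneg_left hy hl0.le
      have h5 : 1 * B ≤ l * B := mul_le_mul_of_nonneg_right hl hB
      linarith
    calc c * (B + l * y) ≤ c * (l * (B + 1)) := mul_le_mul_of_nonneg_left h3 hc0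
      _ ≤ l * (l * (B + 1)) := mul_le_mul_of_nonneg_right hc (by positivity)
  have h6 : 2 * l ^ 3 / N * (c * (B + l * y)) ≤ 2 * l ^ 3 / N * (l * (l * (B + 1))) :=
    mul_le_mul_of_nonneg_left h2 (by positivity)
  have e3 : 2 * l ^ 3 / N * (l * (l * (B + 1))) = 2 * (B + 1) * l ^ 5 / N := by
    ring
  linarith

theorem gavg {β : ℝ} (hd : d ≤ K) (hN : N ≤ n) (h0 : 0 < N) :
    rAv (fun k : Fin (K + 1) → Fin ((K + 1) ^ 2) => ges n K d (me K) β N
      (ct d (gp (1 / (2 * ((K : ℝ) + 1))) (1 / (2 * ((K : ℝ) + 1) ^ 3)) k))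
      (1 / (2 * ((K : ℝ) + 1) ^ 3))) ≤
      2 / ((K : ℝ) + 1) ^ 2 + 2 * (3 * β ^ 2 + 1) * ((K : ℝ) + 1) ^ 5 / N := by
  obtain ⟨l, hl⟩ : ∃ l : ℝ, l = (K : ℝ) + 1 := ⟨_, rfl⟩
  have hl1 : 1 ≤ l := by rw [hl]; linarith [Nat.cast_nonneg (α := ℝ) K]
  have hl0 : 0 < l := by linarith
  have hM : 0 < (K + 1) ^ 2 := by positivity
  have hMl : (((K + 1) ^ 2 : ℕ) : ℝ) = l ^ 2 := by rw [hl]; push_cast; ring
  have hN0 : (0 : ℝ) < N := by exact_mod_cast h0
  rw [← hl]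
  obtain ⟨t, ht⟩ : ∃ t : ℝ, t = 1 / (2 * l ^ 3) := ⟨_, rfl⟩
  have ht0 : 0 < t := by rw [ht]; positivity
  have htσ : t ≤ 1 / (2 * l) := by
    rw [ht]
    apply one_div_le_one_div_of_le (by positivity)
    have : l ≤ l ^ 3 := le_self_pow₀ hl1 (by norm_num)
    linarith
  have e3 : Real.log 2 / me K 1 = l * Real.log 2 := by
    unfold me
    rw [hl]
    push_cast
    rw [div_div_eq_mul_div, div_one]
    ring
  have hcard : (Fintype.card (Fin (K + 1) → Fin ((K + 1) ^ 2)) : ℝ) = (l ^ 2) ^ (K + 1) := by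
    rw [Fintype.card_pi_const, Fintype.card_fin]
    rw [Nat.cast_pow, hMl]
  -- the errors
  have h2 : ∀ k : Fin (K + 1) → Fin ((K + 1) ^ 2),
      ges n K d (me K) β N (ct d (gp (1 / (2 * l)) t k)) t =
      1 / (N * t) * (2 * ∑ j ∈ Finset.Ico d (K + 1),
        dl n K d (me K) β N (ct d (gp (1 / (2 * l)) t k)) t j) +
      1 / (N * t) * (((K + 1 - d : ℕ) : ℝ) * (3 * β ^ 2 + l * Real.log 2)) := by
    intro k
    rw [ges]
    have h3 : ∀ j ∈ Finset.Ico d (K + 1),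
        ger n K d (me K) β N (ct d (gp (1 / (2 * l)) t k)) t j =
        1 / (N * t) * (2 * dl n K d (me K) β N (ct d (gp (1 / (2 * l)) t k)) t j) +
        1 / (N * t) * (3 * β ^ 2 + l * Real.log 2) := by
      intro j hj
      have hj' := Finset.mem_Ico.1 hj
      rw [ger, if_pos (by omega), e3]
      ring
    rw [Finset.sum_congr rfl h3, Finset.sum_add_distrib, Finset.sum_const, Nat.card_Ico,
      nsmul_eq_mul, ← Finset.mul_sum, ← Finset.mul_sum]
    ring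
  have : Nonempty (Fin (K + 1) → Fin ((K + 1) ^ 2)) := ⟨fun _ => ⟨0, hM⟩⟩
  rw [← ht]
  simp only [h2]
  rw [rAv_add, rAv_mul, rAv_mul, rAv_const]
  have h4 : rAv (fun k : Fin (K + 1) → Fin ((K + 1) ^ 2) => ∑ j ∈ Finset.Ico d (K + 1),
      dl n K d (me K) β N (ct d (gp (1 / (2 * l)) t k)) t j) ≤
      ((K + 1 - d : ℕ) : ℝ) * (t * N / l ^ 3) := by
    unfold rAv
    rw [hcard, Finset.sum_comm]
    have h5 : ∑ j ∈ Finset.Ico d (K + 1), ∑ k : Fin (K + 1) → Fin ((K + 1) ^ 2),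
        dl n K d (me K) β N (ct d (gp (1 / (2 * l)) t k)) t j ≤
        ∑ j ∈ Finset.Ico d (K + 1), ((l ^ 2) ^ K * (t * (N * (1 / l)))) := by
      refine Finset.sum_le_sum fun j hj => ?_
      have hj' := Finset.mem_Ico.1 hj
      have h6 := gavg_dl (n := n) (K := K) (N := N) (β := β) hd hN h0 (me_exp K) hM ht0 htσ hj'.1
        (Nat.le_of_lt_succ hj'.2)
      rw [hMl] at h6
      have e1 : 1 / (2 * l) + l ^ 2 * t = 1 / l := by
        rw [ht]; field_simp; ring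
      rwa [e1] at h6
    rw [Finset.sum_const, Nat.card_Ico, nsmul_eq_mul] at h5
    have h7 := mul_le_mul_of_nonneg_left h5
      (by positivity : (0 : ℝ) ≤ 1 / (l ^ 2) ^ (K + 1))
    refine h7.trans (le_of_eq ?_)
    rw [pow_succ]
    field_simp
  have hc : ((K + 1 - d : ℕ) : ℝ) ≤ l := by
    rw [hl]
    have : ((K + 1 - d : ℕ) : ℝ) ≤ ((K + 1 : ℕ) : ℝ) := by exact_mod_cast Nat.sub_le _ _
    push_cast at this
    exact this
  have hlog : Real.log 2 ≤ 1 := by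
    have := Real.log_two_lt_d9
    linarith
  rw [ht] at h4 ⊢
  exact gavg_num hl1 hN0 (by positivity) (Nat.cast_nonneg _) hc h4 hlog

end Step

end Vale.Agent.P146.Ub.Ld
end

section

/-!
# P146, Rt: the rate of the lower bound, from the step
-/

open MeasureTheory ProbabilityTheory Filter Topology

namespace Vale.Agent.P146.Ub.Ld

set_option linter.unusedSectionVars false

open Vale.Agent.P157 Vale.Agent.P157.Lv Vale.Agent.P157.Lv.Sy Vale.Agent.P157.Lv.Fld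
open Vale.Agent.P157.Par (Path Exponents incr spinPart)
open Vale.Agent.P146 (Pair freeEnergy disorder)
open Vale.Agent.P146.Sk (PSK)

/-- The statement of `gstep`. -/
def GStep (K d : ℕ) (β : ℝ) : Prop :=
  ∀ (n N : ℕ) (s : ℕ → ℝ) (hN : N + 1 ≤ n), 0 < N → ∀ σ : ℝ, 0 < σ →
    (∀ l, d ≤ l → l ≤ K → σ ≤ s l) → (∀ l, l < d → s l = 0) → ∀ t : ℝ, 0 < t →
    PSK β K (me K) (ct d (stR (SN n K d (me K) β N s) (ph (Nat.le_of_succ_le hN)))) ≤
      AN n K d (me K) β (N + 1) s - AN n K d (me K) β N s + β ^ 2 / (N + 1 : ℕ) +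
        β ^ 2 * gT K σ (ges n K d (me K) β N s t)

/-- The strengths of the grid are in `[1 / (2 (K+1)), 1 / (K+1)]`. -/
theorem grate_gp_le {K : ℕ} (k : Fin (K + 1) → Fin ((K + 1) ^ 2)) {j : ℕ} (hj : j ≤ K) :
    1 / (2 * ((K : ℝ) + 1)) ≤ gp (1 / (2 * ((K : ℝ) + 1))) (1 / (2 * ((K : ℝ) + 1) ^ 3)) k j ∧
    gp (1 / (2 * ((K : ℝ) + 1))) (1 / (2 * ((K : ℝ) + 1) ^ 3)) k j ≤ 1 / ((K : ℝ) + 1) := by
  have h := gp_mem (σ := 1 / (2 * ((K : ℝ) + 1))) (t := 1 / (2 * ((K : ℝ) + 1) ^ 3))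
    (by positivity) k hj
  refine ⟨h.1, h.2.trans (le_of_eq ?_)⟩
  push_cast
  field_simp
  ring

/-- The averaged step. -/
theorem grate_step {n K N d : ℕ} {β Lb : ℝ} (hG : GStep K d β) (hd : d ≤ K)
    (hLb : ∀ q : ℕ → ℝ, Path K q → q K ≤ 1 → (∀ l < d, q l = 0) → Lb ≤ PSK β K (me K) q)
    (hN : N + 1 ≤ n) (h0 : 0 < N) :
    Lb ≤ rAv (fun k : Fin (K + 1) → Fin ((K + 1) ^ 2) =>
      AN n K d (me K) β (N + 1)
          (ct d (gp (1 / (2 * ((K : ℝ) + 1))) (1 / (2 * ((K : ℝ) + 1) ^ 3)) k)) -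
        AN n K d (me K) β N
          (ct d (gp (1 / (2 * ((K : ℝ) + 1))) (1 / (2 * ((K : ℝ) + 1) ^ 3)) k))) +
      β ^ 2 * (1 / N) + β ^ 2 * ((1 + Real.log ((K : ℝ) + 1)) *
        (70 / ((K : ℝ) + 1) + 64 * (3 * β ^ 2 + 1) * ((K : ℝ) + 1) ^ 6 * (1 / N))) := by
  have hav := gavg (n := n) (K := K) (N := N) (d := d) (β := β) hd (Nat.le_of_succ_le hN) h0
  have hgp := fun (k : Fin (K + 1) → Fin ((K + 1) ^ 2)) => fun {j : ℕ} (hj : j ≤ K) =>
    grate_gp_le k hj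
  obtain ⟨l, hl⟩ : ∃ l : ℝ, l = (K : ℝ) + 1 := ⟨_, rfl⟩
  have hl1 : 1 ≤ l := by rw [hl]; linarith [Nat.cast_nonneg (α := ℝ) K]
  have hl0 : 0 < l := by linarith
  rw [← hl] at hav hgp ⊢
  have hN0 : (0 : ℝ) < N := by exact_mod_cast h0
  obtain ⟨t, ht⟩ : ∃ t : ℝ, t = 1 / (2 * l ^ 3) := ⟨_, rfl⟩
  have ht0 : 0 < t := by rw [ht]; positivity
  rw [← ht] at hav hgp ⊢
  obtain ⟨σ, hσ⟩ : ∃ σ : ℝ, σ = 1 / (2 * l) := ⟨_, rfl⟩
  have hσ0 : 0 < σ := by rw [hσ]; positivity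
  rw [← hσ] at hav hgp ⊢
  have hne : Nonempty (Fin (K + 1) → Fin ((K + 1) ^ 2)) :=
    ⟨fun _ => ⟨0, by positivity⟩⟩
  obtain ⟨X, hX⟩ : ∃ X : (Fin (K + 1) → Fin ((K + 1) ^ 2)) → ℝ,
      X = fun k => ges n K d (me K) β N (ct d (gp σ t k)) t := ⟨_, rfl⟩
  obtain ⟨D, hD⟩ : ∃ D : (Fin (K + 1) → Fin ((K + 1) ^ 2)) → ℝ,
      D = fun k => AN n K d (me K) β (N + 1) (ct d (gp σ t k)) -
        AN n K d (me K) β N (ct d (gp σ t k)) := ⟨_, rfl⟩
  rw [← hX] at hav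
  rw [← hD]
  have hlog0 : 0 ≤ Real.log l := Real.log_nonneg hl1
  obtain ⟨w, hw⟩ : ∃ w : ℝ, w = √(1 + Real.log l) := ⟨_, rfl⟩
  have hw1 : w ≤ 1 + Real.log l := by
    rw [hw]
    refine Real.sqrt_le_iff.2 ⟨by linarith, ?_⟩
    nlinarith
  have hw0 : 0 ≤ w := by rw [hw]; exact Real.sqrt_nonneg _
  -- the step at each point of the grid
  have hstep : ∀ k, Lb ≤ D k + (β ^ 2 * (1 / N) + β ^ 2 * ((2 * w + 4) / l)) +
      (β ^ 2 * (32 * l * w)) * X k := by
    intro k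
    have hs0 : ∀ j ≤ K, 0 ≤ ct d (gp σ t k) j := by
      intro j hj
      unfold ct
      split_ifs
      · exact le_rfl
      · exact hσ0.le.trans (hgp k hj).1
    have h1 := hG n N (ct d (gp σ t k)) hN h0 σ hσ0
      (fun j hdj hj => by rw [ct_ge hdj]; exact (hgp k hj).1)
      (fun j hj => ct_lt hj _) t ht0
    have hF := SN_fld (n := n) (K := K) (m := me K) (N := N) (β := β) (s := ct d (gp σ t k)) hd
      (Nat.le_of_succ_le hN) h0 (me_exp K) hs0
    have hlast : stR (SN n K d (me K) β N (ct d (gp σ t k))) (ph (Nat.le_of_succ_le hN)) K = 1 :=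
      stR_last (SN n K d (me K) β N (ct d (gp σ t k))) (ph (Nat.le_of_succ_le hN))
    have h2 := hLb (ct d (stR (SN n K d (me K) β N (ct d (gp σ t k))) (ph (Nat.le_of_succ_le hN))))
      (ct_path (st_path hF)) (by rw [ct_ge hd, hlast]) (fun l hl => ct_lt hl _)
    have h3 := h2.trans h1
    have e1 : gT K σ (X k) = (2 * w + 4) / l + 32 * l * w * X k := by
      unfold gT
      rw [← hl, ← hw, hσ]
      field_simp
      ring
    have hXk : ges n K d (me K) β N (ct d (gp σ t k)) t = X k := by rw [hX]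
    rw [hXk, e1] at h3
    have h7 : 1 / ((N + 1 : ℕ) : ℝ) ≤ 1 / N := by
      apply one_div_le_one_div_of_le hN0
      push_cast
      linarith
    have hb := sq_nonneg β
    have h8 : β ^ 2 / ((N + 1 : ℕ) : ℝ) ≤ β ^ 2 * (1 / N) := by
      rw [← mul_one_div]
      exact mul_le_mul_of_nonneg_left h7 hb
    have hDk : D k = AN n K d (me K) β (N + 1) (ct d (gp σ t k)) -
        AN n K d (me K) β N (ct d (gp σ t k)) := by rw [hD]
    rw [hDk]
    linarith
  have h1 := rAv_mono hstep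
  rw [rAv_const, rAv_add, rAv_add, rAv_const, rAv_mul] at h1
  have hb := sq_nonneg β
  have h2 : β ^ 2 * (32 * l * w) * rAv X ≤
      β ^ 2 * (32 * l * w) * (2 / l ^ 2 + 2 * (3 * β ^ 2 + 1) * l ^ 5 / N) :=
    mul_le_mul_of_nonneg_left hav (by positivity)
  have e2 : β ^ 2 * (32 * l * w) * (2 / l ^ 2 + 2 * (3 * β ^ 2 + 1) * l ^ 5 / N) =
      β ^ 2 * (w * (64 / l + 64 * (3 * β ^ 2 + 1) * l ^ 6 * (1 / N))) := by
    field_simp
    ring
  rw [e2] at h2
  have h3 : β ^ 2 * ((2 * w + 4) / l) + β ^ 2 * (w * (64 / l + 64 * (3 * β ^ 2 + 1) * l ^ 6 * (1 / N)))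
      ≤ β ^ 2 * ((1 + Real.log l) * (70 / l + 64 * (3 * β ^ 2 + 1) * l ^ 6 * (1 / N))) := by
    rw [← mul_add]
    refine mul_le_mul_of_nonneg_left ?_ hb
    obtain ⟨Y, hY⟩ : ∃ Y : ℝ, Y = 64 * (3 * β ^ 2 + 1) * l ^ 6 * (1 / N) := ⟨_, rfl⟩
    have hY0 : 0 ≤ Y := by rw [hY]; positivity
    rw [← hY]
    have hi : 0 < 1 / l := by positivity
    have e3 : (2 * w + 4) / l + w * (64 / l + Y) = (66 * w + 4) * (1 / l) + w * Y := by
      field_simp; ring
    have e4 : (1 + Real.log l) * (70 / l + Y) =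
        (70 * (1 + Real.log l)) * (1 / l) + (1 + Real.log l) * Y := by
      field_simp
    rw [e3, e4]
    refine add_le_add (mul_le_mul_of_nonneg_right (by linarith) hi.le)
      (mul_le_mul_of_nonneg_right hw1 hY0)
  linarith

theorem sum_one_div_le (n : ℕ) :
    ∑ N ∈ Finset.Ico 1 n, (1 / (N : ℝ)) ≤ 1 + Real.log n := by
  have h := harmonic_le_one_add_log n
  have h1 : ∑ N ∈ Finset.Ico 1 n, (1 / (N : ℝ)) ≤ (harmonic n : ℝ) := by
    rw [harmonic_eq_sum_Icc]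
    push_cast
    have : Finset.Ico 1 n ⊆ Finset.Icc 1 n := Finset.Ico_subset_Icc_self
    refine (Finset.sum_le_sum_of_subset_of_nonneg this fun i _ _ => by positivity).trans
      (le_of_eq (Finset.sum_congr rfl fun i _ => one_div _))
  exact h1.trans h

/-- **The rate**, from the step. -/
theorem grate_of {β : ℝ} (hG : ∀ K d : ℕ, 1 ≤ d → d ≤ K → GStep K d β) : ∃ C : ℝ, 0 ≤ C ∧ ∀ (K d : ℕ) (Lb : ℝ),
    1 ≤ d → d ≤ K →
    (∀ q : ℕ → ℝ, Path K q → q K ≤ 1 → (∀ l < d, q l = 0) → Lb ≤ PSK β K (me K) q) →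
    ∀ n : ℕ, 1 ≤ n →
      n * (Real.log 2 + Lb) ≤
        1 / me K d * Real.log (∫ g, Real.exp (me K d * freeEnergy n β g) ∂(disorder n)) +
          C * (1 + Real.log ((K : ℝ) + 1)) *
            (n / ((K : ℝ) + 1) + ((K : ℝ) + 1) ^ 6 * (1 + Real.log n)) := by
  refine ⟨1 / 2 + β ^ 2 / 4 + β ^ 2 + β ^ 2 * (70 + 64 * (3 * β ^ 2 + 1)), by positivity, ?_⟩
  intro K d Lb hd1 hd hLb n hn
  obtain ⟨E, hE⟩ : ∃ E : ℝ, E = 1 / me K d *
    Real.log (∫ g, Real.exp (me K d * freeEnergy n β g) ∂(disorder n)) := ⟨_, rfl⟩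
  rw [← hE]
  have hn0 : 0 < n := hn
  have hnpos : (0 : ℝ) < n := by exact_mod_cast hn0
  have hn1 : (1 : ℝ) ≤ n := by exact_mod_cast hn
  obtain ⟨S, hS⟩ : ∃ S : (Fin (K + 1) → Fin ((K + 1) ^ 2)) → ℕ → ℝ,
      S = fun k => ct d (gp (1 / (2 * ((K : ℝ) + 1))) (1 / (2 * ((K : ℝ) + 1) ^ 3)) k) :=
    ⟨_, rfl⟩
  have hstep := fun N (hN : N ∈ Finset.Ico 1 n) =>
    grate_step (n := n) (K := K) (N := N) (hG K d hd1 hd) hd hLb (Finset.mem_Ico.1 hN).2
      (Finset.mem_Ico.1 hN).1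
  have hSle : ∀ k, ∀ j ≤ K, 0 ≤ S k j ∧ S k j ≤ 1 / ((K : ℝ) + 1) := by
    intro k j hj
    rw [hS]
    simp only
    unfold ct
    split_ifs
    · exact ⟨le_rfl, by positivity⟩
    · have h6 := grate_gp_le k hj
      exact ⟨le_trans (by positivity) h6.1, h6.2⟩
  obtain ⟨l, hl⟩ : ∃ l : ℝ, l = (K : ℝ) + 1 := ⟨_, rfl⟩
  have hl1 : 1 ≤ l := by rw [hl]; linarith [Nat.cast_nonneg (α := ℝ) K]
  have hl0 : 0 < l := by linarith
  rw [← hl] at hstep hSle ⊢
  rw [← hl] at hS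
  have hne : Nonempty (Fin (K + 1) → Fin ((K + 1) ^ 2)) :=
    ⟨fun _ => ⟨0, by positivity⟩⟩
  have hlog0 : 0 ≤ Real.log l := Real.log_nonneg hl1
  have hlogn : 0 ≤ Real.log n := Real.log_nonneg hn1
  -- the sum over the stages
  have hsum : ∑ N ∈ Finset.Ico 1 n, Lb ≤
      ∑ N ∈ Finset.Ico 1 n, ((rAv (fun k => AN n K d (me K) β (N + 1) (S k)) -
        rAv (fun k => AN n K d (me K) β N (S k))) + (β ^ 2 * (1 / N) +
          β ^ 2 * ((1 + Real.log l) * (70 / l + 64 * (3 * β ^ 2 + 1) * l ^ 6 * (1 / N))))) := by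
    refine Finset.sum_le_sum fun N hN => ?_
    have h := hstep N hN
    rw [rAv_sub] at h
    rw [hS]
    linarith
  rw [Finset.sum_add_distrib, Finset.sum_Ico_sub (fun N => rAv (fun k => AN n K d (me K) β N (S k))) hn,
    Finset.sum_const, Nat.card_Ico, nsmul_eq_mul, Nat.cast_sub hn, Nat.cast_one,
    Finset.sum_add_distrib, ← Finset.mul_sum, ← Finset.mul_sum, ← Finset.mul_sum,
    Finset.sum_add_distrib, ← Finset.mul_sum, Finset.sum_const, Nat.card_Ico, nsmul_eq_mul,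
    Nat.cast_sub hn, Nat.cast_one] at hsum
  have hH := sum_one_div_le n
  obtain ⟨H, hHd⟩ : ∃ H : ℝ, H = ∑ N ∈ Finset.Ico 1 n, (1 / (N : ℝ)) := ⟨_, rfl⟩
  rw [← hHd] at hH hsum
  -- the ends
  have h0 : 0 ≤ rAv (fun k => AN n K d (me K) β 1 (S k)) := by
    have := rAv_mono (f := fun _ => (0 : ℝ)) (g := fun k => AN n K d (me K) β 1 (S k))
      fun k => rr_nonneg hd (me_exp K) β 1 (S k)
    rw [rAv_const] at this
    exact this
  have h1 : rAv (fun k => AN n K d (me K) β n (S k)) ≤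
      (E - n * Real.log 2) + n / 2 * (1 / l) := by
    have h2 : ∀ k, AN n K d (me K) β n (S k) ≤
        (E - n * Real.log 2) + n / 2 * (1 / l) := by
      intro k
      have h3 := rr_le (n := n) hd (me_exp K) β (S k)
      rw [AN_zero hd1 hd hn0 (me_exp K) β, ← hE] at h3
      have h4 : ∑ j ∈ Finset.range (K + 1), S k j ^ 2 ≤ 1 / l := by
        have h5 : ∀ j ∈ Finset.range (K + 1), S k j ^ 2 ≤ (1 / l) ^ 2 := by
          intro j hj
          have h6 := hSle k j (Nat.le_of_lt_succ (Finset.mem_range.1 hj))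
          exact pow_le_pow_left₀ h6.1 h6.2 2
        refine (Finset.sum_le_sum h5).trans (le_of_eq ?_)
        rw [Finset.sum_const, Finset.card_range, nsmul_eq_mul]
        push_cast
        rw [← hl]
        field_simp
      have h5 := mul_le_mul_of_nonneg_left h4 (by positivity : (0 : ℝ) ≤ n / 2)
      refine h3.trans ?_
      have e : (n : ℝ) * (∑ j ∈ Finset.range (K + 1), S k j ^ 2) / 2 =
          n / 2 * ∑ j ∈ Finset.range (K + 1), S k j ^ 2 := by ring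
      rw [e]
      linarith
    have h3 := rAv_mono h2
    rw [rAv_const] at h3
    exact h3
  -- conclusion
  have hLbu := rr_Lb hLb
  have hb := sq_nonneg β
  obtain ⟨a, ha⟩ : ∃ a : ℝ, a = 1 + Real.log l := ⟨_, rfl⟩
  obtain ⟨b, hbd⟩ : ∃ b : ℝ, b = 1 + Real.log n := ⟨_, rfl⟩
  have ha1 : 1 ≤ a := by linarith
  have hb1 : 1 ≤ b := by linarith
  rw [← ha] at hsum ⊢
  rw [← hbd] at hH ⊢
  have hl6 : 1 ≤ l ^ 6 := one_le_pow₀ hl1
  have hH0 : 0 ≤ H := by
    rw [hHd]; exact Finset.sum_nonneg fun i _ => by positivity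
  -- bounds of the errors
  have k1 : β ^ 2 * H ≤ β ^ 2 * (a * (n / l + l ^ 6 * b)) := by
    refine mul_le_mul_of_nonneg_left ?_ hb
    have : b ≤ l ^ 6 * b := by nlinarith
    have h3 : 0 ≤ n / l := by positivity
    have h4 : n / l + l ^ 6 * b ≤ a * (n / l + l ^ 6 * b) :=
      le_mul_of_one_le_left (by positivity) ha1
    linarith
  have k2 : β ^ 2 * (a * (((n : ℝ) - 1) * (70 / l) + 64 * (3 * β ^ 2 + 1) * l ^ 6 * H)) ≤
      β ^ 2 * (70 + 64 * (3 * β ^ 2 + 1)) * (a * (n / l + l ^ 6 * b)) := by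
    have h3 : ((n : ℝ) - 1) * (70 / l) ≤ 70 * (n / l) := by
      have : 0 ≤ 70 / l := by positivity
      have e : 70 * ((n : ℝ) / l) = n * (70 / l) := by ring
      rw [e]; nlinarith
    have h4 : 64 * (3 * β ^ 2 + 1) * l ^ 6 * H ≤ 64 * (3 * β ^ 2 + 1) * (l ^ 6 * b) := by
      have := mul_le_mul_of_nonneg_left hH (by positivity : 0 ≤ 64 * (3 * β ^ 2 + 1) * l ^ 6)
      linarith
    have h5 : 0 ≤ n / l := by positivity
    have h6 : 0 ≤ l ^ 6 * b := by positivity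
    have h7 : ((n : ℝ) - 1) * (70 / l) + 64 * (3 * β ^ 2 + 1) * l ^ 6 * H ≤
        (70 + 64 * (3 * β ^ 2 + 1)) * (n / l + l ^ 6 * b) := by
      have h8 : 0 ≤ 64 * (3 * β ^ 2 + 1) * (n / l) := by positivity
      have h9 : (70 + 64 * (3 * β ^ 2 + 1)) * (n / l + l ^ 6 * b) =
        70 * (n / l) + 64 * (3 * β ^ 2 + 1) * (l ^ 6 * b) + 64 * (3 * β ^ 2 + 1) * (n / l) +
          70 * (l ^ 6 * b) := by ring
      rw [h9]
      linarith
    have h10 := mul_le_mul_of_nonneg_left h7 (by positivity : 0 ≤ β ^ 2 * a)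
    have e1 : β ^ 2 * a * (((n : ℝ) - 1) * (70 / l) + 64 * (3 * β ^ 2 + 1) * l ^ 6 * H) =
      β ^ 2 * (a * (((n : ℝ) - 1) * (70 / l) + 64 * (3 * β ^ 2 + 1) * l ^ 6 * H)) := by ring
    have e2 : β ^ 2 * a * ((70 + 64 * (3 * β ^ 2 + 1)) * (n / l + l ^ 6 * b)) =
      β ^ 2 * (70 + 64 * (3 * β ^ 2 + 1)) * (a * (n / l + l ^ 6 * b)) := by ring
    rw [e1, e2] at h10
    exact h10
  have k3 : (n : ℝ) / 2 * (1 / l) ≤ 1 / 2 * (a * (n / l + l ^ 6 * b)) := by
    have h3 : 0 ≤ n / l := by positivity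
    have h4 : 0 ≤ l ^ 6 * b := by positivity
    have h5 : n / l + l ^ 6 * b ≤ a * (n / l + l ^ 6 * b) :=
      le_mul_of_one_le_left (by positivity) ha1
    have e : (n : ℝ) / 2 * (1 / l) = 1 / 2 * (n / l) := by ring
    rw [e]
    linarith
  have k4 : β ^ 2 / 4 ≤ β ^ 2 / 4 * (a * (n / l + l ^ 6 * b)) := by
    have h3 : 0 ≤ n / l := by positivity
    have h4 : 1 ≤ l ^ 6 * b := one_le_mul_of_one_le_of_one_le hl6 hb1
    have h5 : 1 ≤ a * (n / l + l ^ 6 * b) :=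
      one_le_mul_of_one_le_of_one_le ha1 (by linarith)
    exact le_mul_of_one_le_right (by positivity) h5
  have e : (1 / 2 + β ^ 2 / 4 + β ^ 2 + β ^ 2 * (70 + 64 * (3 * β ^ 2 + 1))) * a *
      (n / l + l ^ 6 * b) = 1 / 2 * (a * (n / l + l ^ 6 * b)) + β ^ 2 / 4 * (a * (n / l + l ^ 6 * b)) +
        β ^ 2 * (a * (n / l + l ^ 6 * b)) +
        β ^ 2 * (70 + 64 * (3 * β ^ 2 + 1)) * (a * (n / l + l ^ 6 * b)) := by ring
  rw [e]
  linarith

end Vale.Agent.P146.Ub.Ld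
end

section

/-!
# P146, Rt: the concentration of the fields of the levels `j ≥ 1`, without the strength of the level `0`

All coefficients of the level `0` vanish (`1 ≤ d`, `s 0 = 0`, `R 0 = 0`), hence the values at the
level `0` are deterministic (`ls_var` with `V := 0`).
-/

open MeasureTheory ProbabilityTheory Filter Topology

namespace Vale.Agent.P146.Ub.Ld

set_option linter.unusedSectionVars false

open Vale.Agent.P157 Vale.Agent.P157.Lv Vale.Agent.P157.Lv.Sy Vale.Agent.P157.Lv.Fld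
open Vale.Agent.P157.Par (Path Exponents incr spinPart)
open Vale.Agent.P146 (Pair)
open Vale.Agent.P146.Sk (PSK)

section Conc

variable {n K N d : ℕ} {m s R : ℕ → ℝ} {β θ : ℝ}

theorem rtc_st_zero (hd1 : 1 ≤ d) (hs0 : s 0 = 0) (x : Fin n → Bool) (e : RI n K)
    (he : rlv d e = 0) (γ : ℝ) :
    (dsk N γ + fd N s : (Fin n → Bool) → RI n K → ℝ) x e = 0 := by
  rcases e with p | p | l
  · exact absurd he (by show d ≠ 0; omega)
  · have hp : (p.1 : ℕ) = 0 := he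
    show dsk N γ x (Sum.inr (Sum.inl p)) + fd N s x (Sum.inr (Sum.inl p)) = 0
    rw [dsk_b, fd_b, hp, hs0]
    simp
  · show dsk N γ x (Sum.inr (Sum.inr l)) + fd N s x (Sum.inr (Sum.inr l)) = 0
    rw [dsk_b, fd_c, add_zero]

theorem rtc_tc_zero (hd1 : 1 ≤ d) (hs0 : s 0 = 0) (hR0 : R 0 = 0) (x : Fin n → Bool)
    (e : RI n K) (he : rlv d e = 0) :
    (tc β N s R θ : (Fin n → Bool) → RI n K → ℝ) x e = 0 := by
  have h1 := rtc_st_zero (N := N) hd1 hs0 x e he (β / √((N + 1 : ℕ) : ℝ))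
  have h2 : tre N β R x e = 0 := by
    rcases e with p | p | l
    · rfl
    · rfl
    · have hp : (l : ℕ) = 0 := he
      rw [tre_c, hp]
      show β * √(R 0) * sp N x = 0
      rw [hR0, Real.sqrt_zero, mul_zero, zero_mul]
  have h3 : cav N (β / √((N + 1 : ℕ) : ℝ)) x e = 0 := by
    rcases e with p | p | l
    · exact absurd he (by show d ≠ 0; omega)
    · rfl
    · rfl
  show (dsk N (β / √((N + 1 : ℕ) : ℝ)) + fd N s : (Fin n → Bool) → RI n K → ℝ) x e +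
    (Real.sin θ * tre N β R x e + Real.cos θ * cav N (β / √((N + 1 : ℕ) : ℝ)) x e) = 0
  rw [h1, h2, h3]
  simp

theorem rtc_SN_var (hd1 : 1 ≤ d) (hd : d ≤ K) (hm : Exponents K m) (hs0 : s 0 = 0) :
    ∫ z, ((SN n K d m β N s).lg 0 z - (SN n K d m β N s).fe) ^ 2 ∂(gI (RI n K)) ≤ 0 := by
  have h := ls_var (a := (st β N s : (Fin n → Bool) → RI n K → ℝ)) hm (rlv_le hd) (lc n)
    (V := 0) (fun x => by
      refine le_of_eq (Finset.sum_eq_zero fun e _ => ?_)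
      split_ifs with he
      · have h1 : (st β N s : (Fin n → Bool) → RI n K → ℝ) x e = 0 :=
          rtc_st_zero (N := N) hd1 hs0 x e he (β / √N)
        rw [h1]
        ring
      · rfl)
  rw [mul_zero] at h
  exact h

theorem rtc_ST_var (hd1 : 1 ≤ d) (hd : d ≤ K) (hm : Exponents K m) (hs0 : s 0 = 0)
    (hR0 : R 0 = 0) :
    ∫ z, ((ST n K d m β N s R θ).lg 0 z - (ST n K d m β N s R θ).fe) ^ 2 ∂(gI (RI n K)) ≤ 0 := by
  have h := ls_var (a := (tc β N s R θ : (Fin n → Bool) → RI n K → ℝ)) hm (rlv_le hd) (lc n)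
    (V := 0) (fun x => by
      refine le_of_eq (Finset.sum_eq_zero fun e _ => ?_)
      split_ifs with he
      · rw [rtc_tc_zero hd1 hs0 hR0 x e he]
        ring
      · rfl)
  rw [mul_zero] at h
  exact h

theorem rtc_update {j : ℕ} (hj1 : 1 ≤ j) (hs0 : s 0 = 0) (x : ℝ) :
    Function.update s j x 0 = 0 := by
  rw [Function.update_of_ne (by omega), hs0]

theorem ST_conc0 (hd1 : 1 ≤ d) (hd : d ≤ K) (hN : N + 1 ≤ n) (h0 : 0 < N) (hm : Exponents K m)
    (hR : Path K R) (hR1 : R K ≤ 1) (hR0 : R 0 = 0) (hs : ∀ l ≤ K, 0 ≤ s l) (hs0 : s 0 = 0)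
    {t : ℝ} (ht : 0 < t) (θ : ℝ) {j : ℕ} (hj1 : 1 ≤ j) (hj : j ≤ K) :
    (ST n K d m β N s R θ).Ex (fun z x => |hz (ph (Nat.le_of_succ_le hN))
        (zc (Nat.le_of_succ_le hN)) j z x - (SN n K d m β N s).Ex (hz (ph (Nat.le_of_succ_le hN))
        (zc (Nat.le_of_succ_le hN)) j)|) ≤ ger n K d m β N s t j := by
  have hN' : N ≤ n := Nat.le_of_succ_le hN
  have hN0 : (0 : ℝ) < N := by exact_mod_cast h0
  have hReg : (ST n K d m β N s R θ).Reg := rs_reg hd hm _ _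
  have hRegt : ∀ t', ((ST n K d m β N s R θ).pt (gx hN' j) t').Reg := by
    intro t'
    rw [ST_pt hN' hj]
    exact rs_reg hd hm _ _
  have h1 := conc_abs hReg (nh_gx hN' j) hRegt (t := t) (F0 := AN n K d m β N s)
    (Fp := AN n K d m β N (Function.update s j (s j + t)))
    (Fm := AN n K d m β N (Function.update s j (s j - t)))
    (c₀ := (SN n K d m β N s).Ex (gx hN' j)) (B := β ^ 2 / 2)
    (V := 0) ht
    (ST_cmp hd hN h0 hm hR hR1 s θ)
    (by rw [ST_pt hN' hj]; exact ST_cmp hd hN h0 hm hR hR1 _ θ)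
    (by
      rw [ST_pt hN' hj, ← sub_eq_add_neg]
      exact ST_cmp hd hN h0 hm hR hR1 _ θ)
    (AN_tangent hd hN' hm s hj t)
    (by
      have := AN_tangent (β := β) hd hN' hm s hj (-t)
      rw [← sub_eq_add_neg, neg_mul, ← sub_eq_add_neg] at this
      exact this)
    (by
      intro t' ht'
      rw [ST_pt hN' hj]
      exact rtc_ST_var hd1 hd hm (rtc_update hj1 hs0 _) hR0)
  have e1 : (ST n K d m β N s R θ).Ex (fun z x => |hz (ph hN') (zc hN') j z x -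
      (SN n K d m β N s).Ex (hz (ph hN') (zc hN') j)|) =
      1 / N * (ST n K d m β N s R θ).Ex (fun z x => |gx hN' j z x -
        (SN n K d m β N s).Ex (gx hN' j)|) := by
    rw [← Sy.Ex_const_mul]
    congr 1
    funext z x
    rw [rs_Ex_gx hN' h0, hz_eq_gx]
    have e2 : 1 / (N : ℝ) * gx hN' j z x - (SN n K d m β N s).Ex (hz (ph hN') (zc hN') j) =
        1 / N * (gx hN' j z x - N * (SN n K d m β N s).Ex (hz (ph hN') (zc hN') j)) := by
      field_simp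
    rw [e2, abs_mul, abs_of_pos (by positivity)]
  rw [e1]
  refine (mul_le_mul_of_nonneg_left h1 (by positivity)).trans (le_of_eq ?_)
  unfold ger dl
  rw [if_pos hj, Real.sqrt_zero, mul_zero, add_zero]
  have e3 : (ST n K d m β N s R θ).m 1 = m 1 := rfl
  rw [e3]
  field_simp
  ring

theorem SN_conc0 (hd1 : 1 ≤ d) (hd : d ≤ K) (hN : N ≤ n) (h0 : 0 < N) (hm : Exponents K m)
    (hs : ∀ l ≤ K, 0 ≤ s l) (hs0 : s 0 = 0) {t : ℝ} (ht : 0 < t) {j : ℕ} (hj1 : 1 ≤ j)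
    (hj : j ≤ K) :
    (SN n K d m β N s).Ex (fun z x => |hz (ph hN) (zc hN) j z x -
      (SN n K d m β N s).Ex (hz (ph hN) (zc hN) j)|) ≤ ger n K d m β N s t j := by
  have hN0 : (0 : ℝ) < N := by exact_mod_cast h0
  have hReg : (SN n K d m β N s).Reg := rs_reg hd hm _ _
  have hRegt : ∀ t', ((SN n K d m β N s).pt (gx hN j) t').Reg := by
    intro t'
    rw [SN_pt hN hj]
    exact rs_reg hd hm _ _
  have hB : 0 ≤ β ^ 2 / 2 := by positivity
  have h1 := conc_abs hReg (nh_gx hN j) hRegt (t := t) (F0 := AN n K d m β N s)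
    (Fp := AN n K d m β N (Function.update s j (s j + t)))
    (Fm := AN n K d m β N (Function.update s j (s j - t)))
    (c₀ := (SN n K d m β N s).Ex (gx hN j)) (B := β ^ 2 / 2)
    (V := 0) ht
    (by unfold AN; rw [sub_self, abs_zero]; exact hB)
    (by rw [SN_pt hN hj]; unfold AN; rw [sub_self, abs_zero]; exact hB)
    (by
      rw [SN_pt hN hj, ← sub_eq_add_neg]
      unfold AN
      rw [sub_self, abs_zero]; exact hB)
    (AN_tangent hd hN hm s hj t)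
    (by
      have := AN_tangent (β := β) hd hN hm s hj (-t)
      rw [← sub_eq_add_neg, neg_mul, ← sub_eq_add_neg] at this
      exact this)
    (by
      intro t' ht'
      rw [SN_pt hN hj]
      exact rtc_SN_var hd1 hd hm (rtc_update hj1 hs0 _))
  have e1 : (SN n K d m β N s).Ex (fun z x => |hz (ph hN) (zc hN) j z x -
      (SN n K d m β N s).Ex (hz (ph hN) (zc hN) j)|) =
      1 / N * (SN n K d m β N s).Ex (fun z x => |gx hN j z x -
        (SN n K d m β N s).Ex (gx hN j)|) := by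
    rw [← Sy.Ex_const_mul]
    congr 1
    funext z x
    rw [rs_Ex_gx hN h0, hz_eq_gx]
    have e2 : 1 / (N : ℝ) * gx hN j z x - (SN n K d m β N s).Ex (hz (ph hN) (zc hN) j) =
        1 / N * (gx hN j z x - N * (SN n K d m β N s).Ex (hz (ph hN) (zc hN) j)) := by
      field_simp
    rw [e2, abs_mul, abs_of_pos (by positivity)]
  rw [e1]
  refine (mul_le_mul_of_nonneg_left h1 (by positivity)).trans (le_of_eq ?_)
  unfold ger dl
  rw [if_pos hj, Real.sqrt_zero, mul_zero, add_zero]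
  have e3 : (SN n K d m β N s).m 1 = m 1 := rfl
  rw [e3]
  field_simp
  ring

theorem ger_nonneg (hd : d ≤ K) (hN : N ≤ n) (hm : Exponents K m) (s : ℕ → ℝ) {t : ℝ}
    (ht : 0 < t) (j : ℕ) : 0 ≤ ger n K d m β N s t j := by
  unfold ger
  split_ifs with hj
  · have h1 := rr_dl_nonneg (β := β) hd hN hm s t hj
    have h2 : 0 < m 1 := by
      have := hm.2.2 0 (Nat.zero_le _)
      rwa [hm.1] at this
    have h3 : 0 ≤ Real.log 2 := Real.log_nonneg (by norm_num)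
    positivity
  · exact le_rfl

end Conc

end Vale.Agent.P146.Ub.Ld
end

section

/-!
# P146, Rt: the second moment of the overlap, one error per level (the last part of the proof of
`Fld.sync`, P157/LvPair.lean)
-/

open MeasureTheory ProbabilityTheory Filter Topology

namespace Vale.Agent.P146.Ub.Ld

set_option linter.unusedSectionVars false

open Vale.Agent.P157 Vale.Agent.P157.Lv Vale.Agent.P157.Lv.Sy Vale.Agent.P157.Lv.Fld
open Vale.Agent.P157.Par (Path Exponents incr spinPart)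
open Vale.Agent.P146 (Pair freeEnergy disorder)

section gen

variable {ι X : Type} [Fintype ι] [DecidableEq ι] [Fintype X] [DecidableEq X] [Nonempty X] {N : ℕ}
  {S : Sy ι X} {D : ι → (ι → ℝ) → X → ℝ} {φ : X → Fin N → ℝ} {zc : ℕ → Fin N → ι} {s : ℕ → ℝ}

/-- the last part of the proof of `Fld.sync` -/
theorem gsync_Q (F : Fld S D φ zc s) {d : ℕ} {σ : ℝ} (hσ : 0 < σ)
    (hs : ∀ l, d ≤ l → l ≤ S.K → σ ≤ s l) {e : ℕ → ℝ} (he : ∀ l, 0 ≤ e l)
    (hc : ∀ l, d ≤ l → l ≤ S.K → ∃ c, S.Ex (fun z x => |hz φ zc l z x - c|) ≤ e l)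
    {l : ℕ} (hd : d ≤ l) (hl : l < S.K) :
    S.m (l + 1) * (gQ S φ l - gW S φ l) ≤ S.p l * gV S φ l + 2 * (e l + e (l + 1)) / σ := by
  have hS := F.hreg
  have hN := F.N_pos
  have hlK := hl.le
  set R : ℕ → ℝ := fun k => S.Rl φ k with hR
  set W : ℕ → ℝ := fun k => S.Ex (fun z x => uu S φ l z x * uu S φ k z x) with hW
  set G : ℕ → ℝ := fun k => W k - R l * R k with hG
  set A : ℕ → ℝ := fun j => ∑ k ∈ Finset.Ico j (S.K + 1), S.p k * G k with hA
  -- consequences of (A)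
  have cA : ∀ j, l < j → j ≤ S.K + 1 → |A j| ≤ 2 * e j / σ := by
    intro j hlj hj
    rcases Nat.lt_or_ge j (S.K + 1) with hj' | hj'
    · have hjK : j ≤ S.K := by omega
      obtain ⟨c, hc'⟩ := hc j (by omega) hjK
      have h1 := F.dev (j := j) hlK hc'
      have h2 := F.ident_A hlj hjK
      have h3 := F.Ex_hz hjK
      have e1 : S.Ex (fun z x => hz φ zc j z x * uu S φ l z x) - S.Ex (hz φ zc j) * S.Rl φ l =
          - (s j * A j) := by
        have e2 : S.Ex (fun z x => hz φ zc j z x * uu S φ l z x) =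
            s j * (R l - ∑ i ∈ Finset.Ico j (S.K + 1), S.p i * W i) := h2
        rw [e2, h3]
        have e3 : A j = ∑ i ∈ Finset.Ico j (S.K + 1), S.p i * W i -
            R l * ∑ i ∈ Finset.Ico j (S.K + 1), S.p i * R i := by
          simp only [hA, hG]
          rw [Finset.mul_sum, ← Finset.sum_sub_distrib]
          refine Finset.sum_congr rfl fun i _ => ?_
          ring
        rw [e3]
        simp only [hR]
        ring
      rw [e1, abs_neg, abs_mul, abs_of_nonneg (F.pos j hjK)] at h1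
      rw [le_div_iff₀ hσ]
      have h4 := mul_le_mul_of_nonneg_left (hs j (by omega) hjK) (abs_nonneg (A j))
      rw [mul_comm (|A j|) (s j)] at h4
      exact h4.trans h1
    · have : A j = 0 := by
        simp only [hA]
        rw [Finset.Ico_eq_empty (by omega), Finset.sum_empty]
      rw [this, abs_zero]
      have := he j
      positivity
  -- the variance of `u_l`
  have nu := nh_uu (φ := φ) hS hlK
  have nc : ∀ c : ℝ, Nh (ι := ι) (X := X) (fun _ _ => c) := fun c => Nh.fst (EG.const c)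
  set V : ℝ := W l - R l * R l with hV
  have hV1 : S.Ex (fun z x => (uu S φ l z x - R l) ^ 2) = V := by
    have e1 : (fun z x => (uu S φ l z x - R l) ^ 2) =
        fun z x => (uu S φ l z x * uu S φ l z x - 2 * R l * uu S φ l z x) + R l ^ 2 := by
      funext z x
      ring
    rw [e1, hS.Ex_add (Nh.sub (Nh.mul nu nu) (Nh.const_mul _ nu)) (nc _),
      hS.Ex_sub (Nh.mul nu nu) (Nh.const_mul _ nu), Sy.Ex_const_mul, hS.Ex_const, F.Ex_uu hlK]
    simp only [hV, hR, hW]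
    ring
  -- (B)
  set Q : ℝ := S.pairEx l (fun x x' => Rov φ x x' ^ 2) with hQ
  set a : ℕ → ℝ := fun i => 1 / (N : ℝ) ^ 2 * S.Ex (fun z _ => ∑ a, ∑ b,
          S.T l (fun _ x => φ x a * φ x b) z * S.T l (fun z _ => S.mg φ i a z * S.mg φ i b z) z)
    with ha
  have hp0 : ∀ i ≤ S.K, 0 ≤ S.p i := fun i hi => by
    rw [Sy.p]
    linarith [hS.mono i hi]
  have hsum : ∑ i ∈ Finset.Ico (l + 1) (S.K + 1), S.p i = 1 - S.m (l + 1) := by
    have h1 : ∀ n, l + 1 ≤ n → ∑ i ∈ Finset.Ico (l + 1) n, S.p i = S.m n - S.m (l + 1) := by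
      intro n hn
      induction n, hn using Nat.le_induction with
      | base => simp
      | succ n hn ih =>
        rw [Finset.sum_Ico_succ_top hn, ih, Sy.p]
        ring
    rw [h1 _ (by omega), hS.mK]
  have ha1 : ∑ i ∈ Finset.Ico (l + 1) (S.K + 1), S.p i * a i ≤ Q * (1 - S.m (l + 1)) := by
    rw [← hsum, Finset.mul_sum]
    refine Finset.sum_le_sum fun i hi => ?_
    rw [Finset.mem_Ico] at hi
    rw [mul_comm Q]
    exact mul_le_mul_of_nonneg_left (F.three_le_two (by omega) (by omega)) (hp0 i (by omega))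
  have hB : Q - ∑ i ∈ Finset.Ico (l + 1) (S.K + 1), S.p i * a i - S.m (l + 1) * W l - A l ≤
      2 * e l / σ := by
    obtain ⟨c, hc'⟩ := hc l hd hlK
    have h1 := F.dev (j := l) hlK hc'
    have h2 := F.ident_B hlK
    have h3 := F.Ex_hz hlK
    have e1 : S.Ex (fun z x => hz φ zc l z x * uu S φ l z x) - S.Ex (hz φ zc l) * S.Rl φ l =
        s l * (Q - ∑ i ∈ Finset.Ico (l + 1) (S.K + 1), S.p i * a i - S.m (l + 1) * W l - A l) := by
      have e0 : W l = S.Ex (fun z x => (1 / N * ∑ a, S.mg φ l a z * φ x a) ^ 2) := by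
        simp only [hW]
        congr 1
        funext z x
        rw [sq]
        rfl
      have e2 : S.Ex (fun z x => hz φ zc l z x * uu S φ l z x) =
          s l * (Q - ∑ i ∈ Finset.Ico (l + 1) (S.K + 1), S.p i * a i - S.m (l + 1) * W l + R l -
            ∑ i ∈ Finset.Ico l (S.K + 1), S.p i * W i) := by
        rw [e0]
        exact h2
      rw [e2, h3]
      have e3 : A l = ∑ i ∈ Finset.Ico l (S.K + 1), S.p i * W i -
          R l * ∑ i ∈ Finset.Ico l (S.K + 1), S.p i * R i := by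
        simp only [hA, hG]
        rw [Finset.mul_sum, ← Finset.sum_sub_distrib]
        refine Finset.sum_congr rfl fun i _ => ?_
        ring
      rw [e3]
      simp only [hR]
      ring
    rw [e1] at h1
    have h5 := (abs_le.mp h1).2
    have he0 := he l
    rw [le_div_iff₀ hσ]
    clear_value A W a Q
    by_cases hx : Q - ∑ i ∈ Finset.Ico (l + 1) (S.K + 1), S.p i * a i - S.m (l + 1) * W l - A l ≤ 0
    · exact (mul_nonpos_of_nonpos_of_nonneg hx hσ.le).trans (by linarith only [he0])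
    · push Not at hx
      have h4 := mul_le_mul_of_nonneg_left (hs l hd hlK) hx.le
      rw [mul_comm _ (s l)] at h4
      exact h4.trans h5
  have hAl : A l = S.p l * V + A (l + 1) := by
    simp only [hA, hV]
    rw [Finset.sum_eq_sum_Ico_succ_bot (by omega : l < S.K + 1)]
  have hA1 := (abs_le.mp (cA (l + 1) (by omega) (by omega))).2
  have e5 : gV S φ l = V := hV1
  have e6 : gQ S φ l = Q := rfl
  have e7 : gW S φ l = W l := rfl
  have e8 : 2 * (e l + e (l + 1)) / σ = 2 * e l / σ + 2 * e (l + 1) / σ := by ring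
  rw [e5, e6, e7, e8]
  rw [hAl] at hB
  have e9 : Q * (1 - S.m (l + 1)) = Q - S.m (l + 1) * Q := by ring
  have e10 : S.m (l + 1) * (Q - W l) = S.m (l + 1) * Q - S.m (l + 1) * W l := by ring
  rw [e9] at ha1
  rw [e10]
  clear_value A W a Q V
  linarith only [ha1, hB, hA1]

end gen

end Vale.Agent.P146.Ub.Ld
end

section

/-! P146, Rt: the difference of the overlap paths of two systems. -/

open MeasureTheory ProbabilityTheory Filter Topology

namespace Vale.Agent.P146.Ub.Ld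

set_option linter.unusedSectionVars false

open Vale.Agent.P157 Vale.Agent.P157.Lv Vale.Agent.P157.Lv.Sy Vale.Agent.P157.Lv.Fld
open Vale.Agent.P157.Par (Path Exponents incr spinPart)
open Vale.Agent.P146 (Pair freeEnergy disorder)
open Vale.Agent.P146.Sk (PSK)

section gen

variable {ι X : Type} [Fintype ι] [DecidableEq ι] [Fintype X] [DecidableEq X] [Nonempty X] {N : ℕ}
  {S : Sy ι X} {D : ι → (ι → ℝ) → X → ℝ} {φ : X → Fin N → ℝ} {zc : ℕ → Fin N → ι} {s : ℕ → ℝ}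

theorem gpath {S' : Sy ι X} {D' : ι → (ι → ℝ) → X → ℝ} (F : Fld S D φ zc s)
    (F' : Fld S' D' φ zc s) (hK : S'.K = S.K) (hm : S'.m = S.m) {d : ℕ} {σ : ℝ} (hσ : 0 < σ)
    (hs : ∀ l, d ≤ l → l ≤ S.K → σ ≤ s l) {e : ℕ → ℝ} (he : ∀ l, 0 ≤ e l)
    (hc : ∀ l, d ≤ l → l ≤ S.K →
      S.Ex (fun z x => |hz φ zc l z x - S'.Ex (hz φ zc l)|) ≤ e l)
    {l : ℕ} (hd : d ≤ l) (hl : l ≤ S.K) :
    S.p l * |S.Rl φ l - S'.Rl φ l| ≤ (e l + e (l + 1)) / σ := by
  have hS := F.hreg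
  have hp' : ∀ i, S'.p i = S.p i := fun i => by
    show S'.m (i + 1) - S'.m i = S.m (i + 1) - S.m i
    rw [hm]
  -- the difference of the paths
  have hD : ∀ j, d ≤ j → |∑ i ∈ Finset.Ico j (S.K + 1), S.p i *
      (S.Rl φ i - S'.Rl φ i)| ≤ e j / σ := by
    intro j hdj
    rcases Nat.lt_or_ge j (S.K + 1) with hj' | hj'
    · have hjK : j ≤ S.K := by omega
      have a1 : S.Ex (hz φ zc j) =
          s j * (1 - ∑ i ∈ Finset.Ico j (S.K + 1), S.p i * S.Rl φ i) := F.Ex_hz hjK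
      have a2 : S'.Ex (hz φ zc j) =
          s j * (1 - ∑ i ∈ Finset.Ico j (S'.K + 1), S'.p i * S'.Rl φ i) :=
        F'.Ex_hz (l := j) (by omega)
      have a3 : |S.Ex (hz φ zc j) - S'.Ex (hz φ zc j)| ≤ e j := by
        have n1 : Nh (hz φ zc j : (ι → ℝ) → X → ℝ) := F.nh_hz j
        have a4 := hS.abs_Ex_le (f := fun z x => hz φ zc j z x - S'.Ex (hz φ zc j))
          (Nh.sub n1 (fun _ => EG.const _))
        rw [hS.Ex_sub n1 (fun _ => EG.const _), hS.Ex_const] at a4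
        exact a4.trans (hc j hdj hjK)
      rw [a1, a2, hK] at a3
      have a5 : s j * (1 - ∑ i ∈ Finset.Ico j (S.K + 1), S.p i * S.Rl φ i) -
          s j * (1 - ∑ i ∈ Finset.Ico j (S.K + 1), S'.p i * S'.Rl φ i) =
          -(s j * ∑ i ∈ Finset.Ico j (S.K + 1), S.p i * (S.Rl φ i - S'.Rl φ i)) := by
        have a6 : ∑ i ∈ Finset.Ico j (S.K + 1), S.p i * (S.Rl φ i - S'.Rl φ i) =
            ∑ i ∈ Finset.Ico j (S.K + 1), S.p i * S.Rl φ i -
            ∑ i ∈ Finset.Ico j (S.K + 1), S'.p i * S'.Rl φ i := by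
          rw [← Finset.sum_sub_distrib]
          refine Finset.sum_congr rfl fun i _ => ?_
          rw [hp']
          ring
        rw [a6]
        ring
      rw [a5, abs_neg, abs_mul, abs_of_nonneg (hσ.le.trans (hs j hdj hjK))] at a3
      rw [le_div_iff₀ hσ]
      have a8 := mul_le_mul_of_nonneg_left (hs j hdj hjK) (abs_nonneg
        (∑ i ∈ Finset.Ico j (S.K + 1), S.p i * (S.Rl φ i - S'.Rl φ i)))
      rw [mul_comm _ (s j)] at a8
      exact a8.trans a3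
    · rw [Finset.Ico_eq_empty (by omega), Finset.sum_empty, abs_zero]
      exact div_nonneg (he j) hσ.le
  have b1 := hD l hd
  have b2 := hD (l + 1) (by omega)
  rw [Finset.sum_eq_sum_Ico_succ_bot (show l < S.K + 1 by omega)] at b1
  have b3 := abs_le.1 b1
  have b4 := abs_le.1 b2
  have b5 : S.p l * |S.Rl φ l - S'.Rl φ l| = |S.p l * (S.Rl φ l - S'.Rl φ l)| := by
    rw [abs_mul, abs_of_nonneg (st_p_nonneg hS hl)]
  rw [b5, abs_le, add_div]
  constructor <;> linarith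

end gen

end Vale.Agent.P146.Ub.Ld
end

section

/-! P146, Rt: a concentrated field against the average of an observable of the level `k`. -/

open MeasureTheory ProbabilityTheory Filter Topology

namespace Vale.Agent.P146.Ub.Ld

set_option linter.unusedSectionVars false

open Vale.Agent.P157 Vale.Agent.P157.Lv Vale.Agent.P157.Lv.Sy Vale.Agent.P157.Lv.Fld
open Vale.Agent.P157.Par (Path Exponents incr spinPart)
open Vale.Agent.P146 (Pair freeEnergy disorder)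
open Vale.Agent.P146.Sk (PSK)

section gen

variable {ι X : Type} [Fintype ι] [DecidableEq ι] [Fintype X] [DecidableEq X] [Nonempty X] {N : ℕ}
  {S : Sy ι X} {D : ι → (ι → ℝ) → X → ℝ} {φ : X → Fin N → ℝ} {zc : ℕ → Fin N → ι} {s : ℕ → ℝ}

/-- the integrand of the derivative of `T_k ε`, without the strength -/
noncomputable def gwi (S : Sy ι X) (φ : X → Fin N → ℝ) (ε : X → ℝ) (k : ℕ) (i : Fin N) :
    (ι → ℝ) → X → ℝ :=
  fun z x => ε x * (φ x i - ∑ a ∈ Finset.Ico (k + 1) (S.K + 1), S.p a * S.mg φ a i z -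
    S.m (k + 1) * S.mg φ k i z)

theorem nh_gwi (hS : S.Reg) (ε : X → ℝ) {k : ℕ} (hk : k ≤ S.K) (i : Fin N) :
    Nh (gwi S φ ε k i) := by
  refine Nh.mul (Nh.snd ε) (Nh.sub (Nh.sub (Nh.snd fun x => φ x i) (Nh.sum _ fun a ha => ?_))
    (Nh.const_mul _ (Nh.fst (eg_mg hS hk i))))
  exact Nh.const_mul _ (Nh.fst (eg_mg hS (by have := Finset.mem_Ico.1 ha; omega) i))

theorem gw1_pd (F : Fld S D φ zc s) (ε : X → ℝ) {j k : ℕ} (hjk : j ≤ k) (hk : k ≤ S.K)
    (i : Fin N) :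
    PD (zc j i) (S.T k (fun _ y => ε y)) (fun z => s j * S.T k (gwi S φ ε k i) z) := by
  have hjK : j ≤ S.K := hjk.trans hk
  have h := F.reg.pd_T hk (e := zc j i) (by rw [F.lev j hjK i]; exact hjk)
    (h := fun _ x => ε x) (h' := fun _ _ => 0) (fun x => PD.const _) (Nh.snd ε)
    (Nh.fst (EG.const 0))
  refine h.congr fun z => ?_
  have hD : D (zc j i) = fun z x => s j * φ x i := by
    funext z x
    exact F.D j hjK i z x
  have e : (fun (z : ι → ℝ) (x : X) => (0 : ℝ) + ε x * (D (zc j i) z x -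
      ∑ a ∈ Finset.Ico (k + 1) (S.K + 1), S.p a * S.T a (D (zc j i)) z -
        S.m (k + 1) * S.T k (D (zc j i)) z)) =
      fun z x => s j * gwi S φ ε k i z x := by
    funext z x
    rw [hD]
    simp only [Sy.T_const_mul]
    have e1 : ∀ a, S.T a (fun _ x => φ x i) z = S.mg φ a i z := fun a => rfl
    simp only [e1, gwi]
    have e2 : ∑ a ∈ Finset.Ico (k + 1) (S.K + 1), S.p a * (s j * S.mg φ a i z) =
        s j * ∑ a ∈ Finset.Ico (k + 1) (S.K + 1), S.p a * S.mg φ a i z := by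
      rw [Finset.mul_sum]
      refine Finset.sum_congr rfl fun a _ => ?_
      ring
    rw [e2]
    ring
  rw [e, Sy.T_const_mul]

theorem gw1_T (hS : S.Reg) {ε : X → ℝ} (hε : ∀ x, |ε x| ≤ 1) {k : ℕ} (hk : k ≤ S.K)
    (z : ι → ℝ) : |S.T k (fun _ y => ε y) z| ≤ 1 := by
  rw [hS.T_pr hk]
  refine (Finset.abs_sum_le_sum_abs _ _).trans ?_
  rw [← hS.sum_pr hk z]
  refine Finset.sum_le_sum fun x _ => ?_
  rw [abs_mul, abs_of_nonneg (hS.pr_nonneg hk z x)]
  exact mul_le_of_le_one_right (hS.pr_nonneg hk z x) (hε x)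

theorem nh_gw (hS : S.Reg) (ε : X → ℝ) {k : ℕ} (hk : k ≤ S.K) : Nh (gw S ε k) :=
  Nh.mul (Nh.fst (hS.eg_T hk (Nh.snd ε))) (Nh.snd ε)

theorem gw1_abs (hS : S.Reg) {ε : X → ℝ} (hε : ∀ x, |ε x| ≤ 1) {k : ℕ} (hk : k ≤ S.K)
    (z : ι → ℝ) (x : X) : |gw S ε k z x| ≤ 1 := by
  unfold gw
  rw [abs_mul]
  exact mul_le_one₀ (gw1_T hS hε hk z) (abs_nonneg _) (hε x)

theorem gw1_Ex (hS : S.Reg) {ε : X → ℝ} (hε : ∀ x, |ε x| ≤ 1) {k : ℕ} (hk : k ≤ S.K) :
    |S.Ex (gw S ε k)| ≤ 1 := by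
  have nw := nh_gw hS ε hk
  refine (hS.abs_Ex_le nw).trans ?_
  have h := hS.Ex_mono (Nh.abs nw) (Nh.fst (EG.const (1 : ℝ))) fun z x => gw1_abs hS hε hk z x
  rwa [hS.Ex_const] at h

/-- a concentrated field is almost uncorrelated with a bounded observable -/
theorem gw1_dev (F : Fld S D φ zc s) {j : ℕ} {w : (ι → ℝ) → X → ℝ} (nw : Nh w)
    (hw : ∀ z x, |w z x| ≤ 1) {e c : ℝ}
    (hc : S.Ex (fun z x => |hz φ zc j z x - c|) ≤ e) :
    |S.Ex (fun z x => hz φ zc j z x * w z x) - S.Ex (hz φ zc j) * S.Ex w| ≤ 2 * e := by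
  have hS := F.hreg
  have nh := F.nh_hz j
  have nc : ∀ c : ℝ, Nh (ι := ι) (X := X) (fun _ _ => c) := fun c => Nh.fst (EG.const c)
  have hE : |S.Ex w| ≤ 1 := by
    refine (hS.abs_Ex_le nw).trans ?_
    have h := hS.Ex_mono (Nh.abs nw) (Nh.fst (EG.const (1 : ℝ))) fun z x => hw z x
    rwa [hS.Ex_const] at h
  have n1 : Nh (fun z x => hz φ zc j z x - c) := Nh.sub nh (nc c)
  have n2 : Nh (fun z x => w z x - S.Ex w) := Nh.sub nw (nc _)
  have e : S.Ex (fun z x => hz φ zc j z x * w z x) - S.Ex (hz φ zc j) * S.Ex w =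
      S.Ex (fun z x => (hz φ zc j z x - c) * (w z x - S.Ex w)) := by
    have e1 : (fun z x => (hz φ zc j z x - c) * (w z x - S.Ex w)) =
        fun z x => (hz φ zc j z x * w z x - S.Ex w * hz φ zc j z x) -
          c * (w z x - S.Ex w) := by
      funext z x
      ring
    rw [e1, hS.Ex_sub (Nh.sub (Nh.mul nh nw) (Nh.const_mul _ nh)) (Nh.const_mul _ n2),
      hS.Ex_sub (Nh.mul nh nw) (Nh.const_mul _ nh), Sy.Ex_const_mul, Sy.Ex_const_mul,
      hS.Ex_sub nw (nc _), hS.Ex_const, sub_self, mul_zero, sub_zero, mul_comm]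
  rw [e]
  refine (hS.abs_Ex_le (Nh.mul n1 n2)).trans ?_
  have h2 : S.Ex (fun z x => |(hz φ zc j z x - c) * (w z x - S.Ex w)|) ≤
      S.Ex (fun z x => 2 * |hz φ zc j z x - c|) := by
    refine hS.Ex_mono (Nh.abs (Nh.mul n1 n2)) (Nh.const_mul _ (Nh.abs n1)) fun z x => ?_
    rw [abs_mul, mul_comm]
    refine mul_le_mul_of_nonneg_right ?_ (abs_nonneg _)
    have h3 := abs_le.mp (hw z x)
    have h4 := abs_le.mp hE
    rw [abs_le]
    constructor <;> linarith [h3.1, h3.2, h4.1, h4.2]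
  refine h2.trans ?_
  rw [Sy.Ex_const_mul]
  linarith only [hc]

theorem gw_field (F : Fld S D φ zc s) {d : ℕ} {σ : ℝ} (hσ : 0 < σ)
    (hs : ∀ l, d ≤ l → l ≤ S.K → σ ≤ s l) {e : ℕ → ℝ} (he : ∀ l, 0 ≤ e l)
    (hc : ∀ l, d ≤ l → l ≤ S.K → ∃ c, S.Ex (fun z x => |hz φ zc l z x - c|) ≤ e l)
    {ε : X → ℝ} (hε : ∀ x, |ε x| ≤ 1) {j k : ℕ} (hd : d ≤ j) (hjk : j < k) (hk : k ≤ S.K) :
    S.p j * |S.Ex (fun z x => gw S ε k z x * uu S φ j z x) - S.Ex (gw S ε k) * S.Rl φ j| ≤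
      2 * (e j + e (j + 1)) / σ := by
  have hS := F.hreg
  have nw := nh_gw hS ε hk
  have ng : ∀ i, EG (S.T k (gwi S φ ε k i)) := fun i => hS.eg_T hk (nh_gwi hS ε hk i)
  obtain ⟨G, hG⟩ : ∃ G : ℝ, G = S.Ex (fun z x => 1 / (N : ℝ) * ∑ i, φ x i *
      (S.T k (gwi S φ ε k i) z * ε x)) := ⟨_, rfl⟩
  obtain ⟨W, hW⟩ : ∃ W : ℝ, W = S.Ex (gw S ε k) := ⟨_, rfl⟩
  -- the two levels
  have key : ∀ i, d ≤ i → i ≤ k → |(G + W - ∑ a ∈ Finset.Ico i (S.K + 1), S.p a *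
      S.Ex (fun z x => gw S ε k z x * uu S φ a z x)) -
      (1 - ∑ a ∈ Finset.Ico i (S.K + 1), S.p a * S.Rl φ a) * W| ≤ 2 * e i / σ := by
    intro i hdi hik
    have hiK : i ≤ S.K := hik.trans hk
    obtain ⟨c, hc'⟩ := hc i hdi hiK
    have h1 := gw1_dev F nw (fun z x => gw1_abs hS hε hk z x) hc'
    have h2 := F.Ex_hz_mul hiK (u := gw S ε k)
      (u' := fun b z x => s i * S.T k (gwi S φ ε k b) z * ε x)
      (fun b x => ((gw1_pd F ε hik hk b).mul (PD.const (ε x))).congr fun y => by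
        rw [mul_zero, add_zero]) nw
      (fun b => Nh.mul (Nh.const_mul _ (Nh.fst (ng b))) (Nh.snd ε))
    have h3 : S.Ex (fun z x => 1 / (N : ℝ) * ∑ b, φ x b *
        (s i * S.T k (gwi S φ ε k b) z * ε x)) = s i * G := by
      rw [hG, ← Sy.Ex_const_mul]
      congr 1
      funext z x
      rw [Finset.mul_sum, Finset.mul_sum, Finset.mul_sum]
      refine Finset.sum_congr rfl fun b _ => ?_
      ring
    rw [h3, ← hW] at h2
    rw [h2, F.Ex_hz hiK, ← hW] at h1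
    have hsi := hs i hdi hiK
    have hsi0 : 0 < s i := lt_of_lt_of_le hσ hsi
    have e1 : s i * G + s i * (W - ∑ a ∈ Finset.Ico i (S.K + 1), S.p a *
        S.Ex (fun z x => gw S ε k z x * uu S φ a z x)) -
        s i * (1 - ∑ a ∈ Finset.Ico i (S.K + 1), S.p a * S.Rl φ a) * W =
        s i * ((G + W - ∑ a ∈ Finset.Ico i (S.K + 1), S.p a *
          S.Ex (fun z x => gw S ε k z x * uu S φ a z x)) -
        (1 - ∑ a ∈ Finset.Ico i (S.K + 1), S.p a * S.Rl φ a) * W) := by ring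
    rw [e1, abs_mul, abs_of_pos hsi0] at h1
    rw [le_div_iff₀ hσ, mul_comm]
    exact (mul_le_mul_of_nonneg_right hsi (abs_nonneg _)).trans h1
  have b1 := key j hd hjk.le
  have b2 := key (j + 1) (by omega) (by omega)
  have hj : j < S.K + 1 := by omega
  rw [Finset.sum_eq_sum_Ico_succ_bot hj, Finset.sum_eq_sum_Ico_succ_bot hj] at b1
  rw [← hW]
  have hp : 0 ≤ S.p j := st_p_nonneg hS (by omega)
  have b5 : S.p j * |S.Ex (fun z x => gw S ε k z x * uu S φ j z x) - W * S.Rl φ j| =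
      |S.p j * (S.Ex (fun z x => gw S ε k z x * uu S φ j z x) - W * S.Rl φ j)| := by
    rw [abs_mul, abs_of_nonneg hp]
  have b3 := abs_le.1 b1
  have b4 := abs_le.1 b2
  have e6 : 2 * (e j + e (j + 1)) / σ = 2 * e j / σ + 2 * e (j + 1) / σ := by ring
  rw [b5, abs_le, e6]
  constructor <;> linarith [b3.1, b3.2, b4.1, b4.2]

end gen

end Vale.Agent.P146.Ub.Ld
end

section

/-!
# P146, Rt: the moments of the overlap and of `u_l`; the pair moment weighted by `ε`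
-/

open MeasureTheory ProbabilityTheory Filter Topology

namespace Vale.Agent.P146.Ub.Ld

set_option linter.unusedSectionVars false

open Vale.Agent.P157 Vale.Agent.P157.Lv Vale.Agent.P157.Lv.Sy Vale.Agent.P157.Lv.Fld

section gen

variable {ι X : Type} [Fintype ι] [DecidableEq ι] [Fintype X] [DecidableEq X] [Nonempty X] {N : ℕ}
  {S : Sy ι X} {D : ι → (ι → ℝ) → X → ℝ} {φ : X → Fin N → ℝ} {zc : ℕ → Fin N → ι} {s : ℕ → ℝ}

/-- The average of an observable whose dependence on `z` is of the level `l`. -/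
theorem w3_Ex_pr (hS : S.Reg) {l : ℕ} (hl : l ≤ S.K) {g : (ι → ℝ) → X → ℝ}
    (hd : ∀ y, Dep S.lev l (fun z => g z y)) (hn : Nh g) :
    S.Ex g = S.Ex (fun z _ => ∑ y, S.pr l z y * g z y) := by
  have nI : ∀ y : X, Nh (ι := ι) (X := X) (fun _ x => if x = y then (1 : ℝ) else 0) := fun y =>
    Nh.snd fun x => if x = y then (1 : ℝ) else 0
  have e : g = fun (z : ι → ℝ) (x : X) => ∑ y, g z y * (if x = y then (1 : ℝ) else 0) := by
    funext z x
    simp
  have h1 : S.Ex g =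
      ∑ y, S.Ex (fun (z : ι → ℝ) (x : X) => g z y * (if x = y then (1 : ℝ) else 0)) := by
    conv_lhs => rw [e]
    exact hS.Ex_sum Finset.univ fun y _ => Nh.mul (Nh.fst (hn y)) (nI y)
  have h2 : S.Ex (fun z (_ : X) => ∑ y, S.pr l z y * g z y) =
      ∑ y, S.Ex (fun z (_ : X) => S.pr l z y * g z y) :=
    hS.Ex_sum Finset.univ fun y _ => Nh.fst ((hS.eg_pr hl y).mul (hn y))
  rw [h1, h2]
  refine Finset.sum_congr rfl fun y _ => ?_
  rw [← hS.Ex_mul_T hl (hd y) (hn y) (nI y)]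
  congr 1
  funext z _
  rw [mul_comm]
  rfl

theorem w3_dep_uu (S : Sy ι X) (φ : X → Fin N → ℝ) (l : ℕ) (y : X) :
    Dep S.lev l (fun z => uu S φ l z y) := by
  intro z w
  simp only [uu]
  congr 1
  refine Finset.sum_congr rfl fun a _ => ?_
  rw [dep_mg S φ l a z w]

theorem w3_Rov_symm (φ : X → Fin N → ℝ) (x x' : X) : Rov φ x x' = Rov φ x' x := by
  unfold Rov
  congr 1
  exact Finset.sum_congr rfl fun i _ => mul_comm _ _

/-- The conditional variance of the overlap. -/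
noncomputable def w3B (S : Sy ι X) (φ : X → Fin N → ℝ) (l : ℕ) (z : ι → ℝ) : ℝ :=
  ∑ x, ∑ x', S.pr l z x * S.pr l z x' * (Rov φ x x' - uu S φ l z x') ^ 2

theorem w3B_eq (F : Fld S D φ zc s) {l : ℕ} (hl : l ≤ S.K) (z : ι → ℝ) :
    w3B S φ l z = (∑ x, ∑ x', S.pr l z x * S.pr l z x' * Rov φ x x' ^ 2) -
      ∑ x', S.pr l z x' * (uu S φ l z x' * uu S φ l z x') := by
  have hS := F.hreg
  have h1 := hS.sum_pr hl z
  unfold w3B
  rw [Finset.sum_comm, Finset.sum_comm (f := fun x x' => S.pr l z x * S.pr l z x' * Rov φ x x' ^ 2),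
    ← Finset.sum_sub_distrib]
  refine Finset.sum_congr rfl fun x' _ => ?_
  have h2 := F.uu_eq hl z x'
  have e : ∀ x, S.pr l z x * S.pr l z x' * (Rov φ x x' - uu S φ l z x') ^ 2 =
      S.pr l z x * S.pr l z x' * Rov φ x x' ^ 2 -
        (2 * S.pr l z x' * uu S φ l z x') * (S.pr l z x * Rov φ x x') +
        (S.pr l z x' * uu S φ l z x' ^ 2) * S.pr l z x := by
    intro x; ring
  simp_rw [e]
  rw [Finset.sum_add_distrib, Finset.sum_sub_distrib, ← Finset.mul_sum, ← Finset.mul_sum, h1, ← h2]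
  ring

theorem w3_nh_B (F : Fld S D φ zc s) {l : ℕ} (hl : l ≤ S.K) : EG (w3B S φ l) := by
  have hS := F.hreg
  exact EG.sum _ fun x _ => EG.sum _ fun x' _ =>
    ((hS.eg_pr hl x).mul (hS.eg_pr hl x')).mul (((EG.const _).sub (nh_uu hS hl x')).pow 2)

theorem w3B_nonneg (hS : S.Reg) {l : ℕ} (hl : l ≤ S.K) (z : ι → ℝ) : 0 ≤ w3B S φ l z :=
  Finset.sum_nonneg fun x _ => Finset.sum_nonneg fun x' _ =>
    mul_nonneg (mul_nonneg (hS.pr_nonneg hl z x) (hS.pr_nonneg hl z x')) (sq_nonneg _)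

/-- The difference of the two second moments is the mean conditional variance of the overlap. -/
theorem w3_QW (F : Fld S D φ zc s) {l : ℕ} (hl : l ≤ S.K) :
    gQ S φ l - gW S φ l = S.Ex (fun z _ => w3B S φ l z) := by
  have hS := F.hreg
  have nu := nh_uu (φ := φ) hS hl
  have h1 : gW S φ l =
      S.Ex (fun z _ => ∑ x', S.pr l z x' * (uu S φ l z x' * uu S φ l z x')) := by
    unfold gW
    exact w3_Ex_pr hS hl (g := fun z x => uu S φ l z x * uu S φ l z x)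
      (fun y z w => by
        have h := w3_dep_uu S φ l y z w
        simp only at h ⊢
        rw [h]) (Nh.mul nu nu)
  rw [h1, gQ, pairEx, ← hS.Ex_sub (Nh.fst (hS.nh_pair hl _))
    (Nh.fst (EG.sum _ fun x' _ => (hS.eg_pr hl x').mul ((nu x').mul (nu x'))))]
  congr 1
  funext z _
  exact (w3B_eq F hl z).symm

theorem gQW_nonneg (F : Fld S D φ zc s) {l : ℕ} (hl : l ≤ S.K) :
    0 ≤ gQ S φ l - gW S φ l := by
  have hS := F.hreg
  rw [w3_QW F hl, ← hS.Ex_const 0]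
  exact hS.Ex_mono (Nh.fst (EG.const 0)) (Nh.fst (w3_nh_B F hl)) fun z _ => w3B_nonneg hS hl z

/-- The conditional average in `gw_pairR`. -/
noncomputable def w3A (S : Sy ι X) (φ : X → Fin N → ℝ) (ε : X → ℝ) (l : ℕ) (z : ι → ℝ) : ℝ :=
  ∑ x, ∑ x', S.pr l z x * S.pr l z x' * (ε x * ε x' * (Rov φ x x' - uu S φ l z x'))

theorem w3_nh_A (F : Fld S D φ zc s) (ε : X → ℝ) {l : ℕ} (hl : l ≤ S.K) :
    EG (w3A S φ ε l) := by
  have hS := F.hreg
  exact EG.sum _ fun x _ => EG.sum _ fun x' _ =>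
    ((hS.eg_pr hl x).mul (hS.eg_pr hl x')).mul
      ((EG.const _).mul ((EG.const _).sub (nh_uu hS hl x')))

theorem w3A_eq (F : Fld S D φ zc s) (ε : X → ℝ) {l : ℕ} (hl : l ≤ S.K) :
    S.pairEx l (fun x x' => ε x * ε x' * Rov φ x x') -
      S.Ex (fun z x => gw S ε l z x * uu S φ l z x) = S.Ex (fun z _ => w3A S φ ε l z) := by
  have hS := F.hreg
  have nu := nh_uu (φ := φ) hS hl
  have nw : Nh (gw S ε l) := fun x => (hS.eg_T hl (Nh.snd fun y => ε y)).mul (EG.const _)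
  have h1 : S.Ex (fun z x => gw S ε l z x * uu S φ l z x) =
      S.Ex (fun z _ => ∑ x', S.pr l z x' * (gw S ε l z x' * uu S φ l z x')) := by
    exact w3_Ex_pr hS hl (g := fun z x => gw S ε l z x * uu S φ l z x)
      (fun y z w => by
        have h := w3_dep_uu S φ l y z w
        have h' := S.dep_T l (fun _ y => ε y) z w
        simp only [gw] at h ⊢
        rw [h, h']) (Nh.mul nw nu)
  rw [h1, pairEx, ← hS.Ex_sub (Nh.fst (hS.nh_pair hl _))
    (Nh.fst (EG.sum _ fun x' _ => (hS.eg_pr hl x').mul ((nw x').mul (nu x'))))]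
  congr 1
  funext z _
  unfold w3A
  rw [Finset.sum_comm, Finset.sum_comm (s := (Finset.univ : Finset X))
    (f := fun x x' => S.pr l z x * S.pr l z x' * (ε x * ε x' * (Rov φ x x' - uu S φ l z x'))),
    ← Finset.sum_sub_distrib]
  refine Finset.sum_congr rfl fun x' _ => ?_
  have h2 := hS.T_pr hl ε z
  have e : gw S ε l z x' = (∑ x, S.pr l z x * ε x) * ε x' := by
    rw [← h2]
    rfl
  rw [e, Finset.sum_mul, Finset.sum_mul, Finset.mul_sum, ← Finset.sum_sub_distrib]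
  refine Finset.sum_congr rfl fun x _ => ?_
  ring

theorem w3A_sq (hS : S.Reg) {ε : X → ℝ} (hε : ∀ x, |ε x| ≤ 1) {l : ℕ} (hl : l ≤ S.K)
    (z : ι → ℝ) : w3A S φ ε l z ^ 2 ≤ w3B S φ l z := by
  refine (hS.pair_cs hl (fun x x' => ε x * ε x' * (Rov φ x x' - uu S φ l z x')) z).trans ?_
  refine Finset.sum_le_sum fun x _ => Finset.sum_le_sum fun x' _ => ?_
  refine mul_le_mul_of_nonneg_left ?_ (mul_nonneg (hS.pr_nonneg hl z x) (hS.pr_nonneg hl z x'))
  rw [mul_pow, mul_pow]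
  have h1 : ε x ^ 2 ≤ 1 := (sq_le_one_iff_abs_le_one _).2 (hε x)
  have h2 : ε x' ^ 2 ≤ 1 := (sq_le_one_iff_abs_le_one _).2 (hε x')
  exact mul_le_of_le_one_left (sq_nonneg _) (mul_le_one₀ h1 (sq_nonneg _) h2)

theorem gw_pairR (F : Fld S D φ zc s) {ε : X → ℝ} (hε : ∀ x, |ε x| ≤ 1) {l : ℕ}
    (hl : l ≤ S.K) :
    |S.pairEx l (fun x x' => ε x * ε x' * Rov φ x x') -
      S.Ex (fun z x => gw S ε l z x * uu S φ l z x)| ≤ √(gQ S φ l - gW S φ l) := by
  have hS := F.hreg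
  rw [w3A_eq F ε hl, w3_QW F hl]
  refine Real.abs_le_sqrt ?_
  have h1 := hS.Ex_cs (Nh.fst (X := X) (w3_nh_A (φ := φ) F ε hl))
    (Nh.fst (X := X) (EG.const (1 : ℝ)))
  simp only [mul_one, one_pow, hS.Ex_const] at h1
  exact h1.trans (hS.Ex_mono (Nh.fst ((w3_nh_A F ε hl).pow 2)) (Nh.fst (w3_nh_B F hl))
    fun z _ => w3A_sq hS hε hl z)

end gen

end Vale.Agent.P146.Ub.Ld
end

section

/-!
# P146, Rt: the sum over the levels (real numbers only)
-/

namespace Vale.Agent.P146.Ub.Ld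

theorem rsum_cs (s : Finset ℕ) {f g : ℕ → ℝ} (hf : ∀ i ∈ s, 0 ≤ f i) (hg : ∀ i ∈ s, 0 ≤ g i) :
    ∑ i ∈ s, √(f i) * √(g i) ≤ √(∑ i ∈ s, f i) * √(∑ i ∈ s, g i) := by
  rw [← Real.sqrt_mul (Finset.sum_nonneg hf)]
  refine Real.le_sqrt_of_sq_le ?_
  have h1 := Finset.sum_mul_sq_le_sq_mul_sq s (fun i => √(f i)) (fun i => √(g i))
  have h2 : ∑ i ∈ s, √(f i) ^ 2 = ∑ i ∈ s, f i :=
    Finset.sum_congr rfl fun i hi => Real.sq_sqrt (hf i hi)
  have h3 : ∑ i ∈ s, √(g i) ^ 2 = ∑ i ∈ s, g i :=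
    Finset.sum_congr rfl fun i hi => Real.sq_sqrt (hg i hi)
  rw [h2, h3] at h1
  exact h1

theorem rsum_tel (f : ℕ → ℝ) {d K : ℕ} (hd : d ≤ K) :
    ∑ l ∈ Finset.Ico d K, (f (l + 1) - f l) = f K - f d := by
  induction K, hd using Nat.le_induction with
  | base => simp
  | succ K hK ih =>
    rw [Finset.sum_Ico_succ_top hK, ih]
    ring

theorem rsum_e0 {e : ℕ → ℝ} (he : ∀ l, 0 ≤ e l) (d K : ℕ) :
    ∑ l ∈ Finset.Ico d K, e l ≤ ∑ l ∈ Finset.Ico d (K + 1), e l :=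
  Finset.sum_le_sum_of_subset_of_nonneg (Finset.Ico_subset_Ico le_rfl (Nat.le_succ K))
    fun i _ _ => he i

theorem rsum_e1 {e : ℕ → ℝ} (he : ∀ l, 0 ≤ e l) (d K : ℕ) :
    ∑ l ∈ Finset.Ico d K, e (l + 1) ≤ ∑ l ∈ Finset.Ico d (K + 1), e l := by
  rw [Finset.sum_Ico_add' e d K 1]
  exact Finset.sum_le_sum_of_subset_of_nonneg (Finset.Ico_subset_Ico (Nat.le_succ d) le_rfl)
    fun i _ _ => he i

theorem rsum_e2 {e : ℕ → ℝ} (he : ∀ l, 0 ≤ e l) {d K : ℕ} (hd : d ≤ K) (heK : e (K + 1) = 0) :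
    ∑ l ∈ Finset.Ico d K, e (l + 2) ≤ ∑ l ∈ Finset.Ico d (K + 1), e l := by
  rw [Finset.sum_Ico_add' e d K 2]
  have h1 : ∑ l ∈ Finset.Ico (d + 2) (K + 2), e l ≤ ∑ l ∈ Finset.Ico d (K + 2), e l :=
    Finset.sum_le_sum_of_subset_of_nonneg (Finset.Ico_subset_Ico (by omega) le_rfl)
      fun i _ _ => he i
  have h2 : ∑ l ∈ Finset.Ico d (K + 2), e l = ∑ l ∈ Finset.Ico d (K + 1), e l := by
    rw [show K + 2 = K + 1 + 1 by rfl, Finset.sum_Ico_succ_top (by omega), heK, add_zero]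
  linarith

theorem rsum_harm (d K : ℕ) :
    ∑ l ∈ Finset.Ico d K, 1 / ((l : ℝ) + 1) ≤ 1 + Real.log ((K : ℝ) + 1) := by
  have h1 : ∑ l ∈ Finset.Ico d K, 1 / ((l : ℝ) + 1) ≤ ∑ l ∈ Finset.range K, 1 / ((l : ℝ) + 1) := by
    refine Finset.sum_le_sum_of_subset_of_nonneg ?_ fun i _ _ => by positivity
    intro i hi
    rw [Finset.mem_Ico] at hi
    exact Finset.mem_range.2 hi.2
  have h2 : ∑ l ∈ Finset.range K, 1 / ((l : ℝ) + 1) = ((harmonic K : ℚ) : ℝ) := by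
    rw [harmonic]
    push_cast
    exact Finset.sum_congr rfl fun i _ => by rw [one_div]
  have h3 : ((harmonic K : ℚ) : ℝ) ≤ 1 + Real.log K := by
    exact_mod_cast harmonic_le_one_add_log K
  have h4 : Real.log K ≤ Real.log ((K : ℝ) + 1) := by
    rcases Nat.eq_zero_or_pos K with h | h
    · subst h
      simp
    · have hK : (0 : ℝ) < K := by exact_mod_cast h
      exact Real.log_le_log hK (by linarith)
  linarith

theorem rsum_sqrt {y : ℝ} (hy : 0 ≤ y) : √(1 + 2 * y) ≤ 1 + y := by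
  rw [Real.sqrt_le_left (by linarith)]
  nlinarith

theorem rsum_D {K l : ℕ} {σ V D a b : ℝ}
    (hD : ((l : ℝ) + 1) / ((K : ℝ) + 1) * D ≤ 1 / ((K : ℝ) + 1) * V + 2 * (a + b) / σ) :
    D ≤ 1 / ((l : ℝ) + 1) * (V + 2 * (((K : ℝ) + 1) / σ) * (a + b)) := by
  have hK : (0 : ℝ) < (K : ℝ) + 1 := by positivity
  have hl : (0 : ℝ) < (l : ℝ) + 1 := by positivity
  have h1 := mul_le_mul_of_nonneg_left hD hK.le
  have h2 : ((K : ℝ) + 1) * (((l : ℝ) + 1) / ((K : ℝ) + 1) * D) = ((l : ℝ) + 1) * D := by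
    field_simp
  have h3 : ((K : ℝ) + 1) * (1 / ((K : ℝ) + 1) * V + 2 * (a + b) / σ) =
      V + 2 * (((K : ℝ) + 1) / σ) * (a + b) := by
    rw [mul_add, ← mul_assoc, mul_one_div_cancel hK.ne', one_mul]
    ring
  rw [h2, h3] at h1
  rw [one_div, ← div_eq_inv_mul, le_div_iff₀ hl]
  linarith

theorem gsum {K d : ℕ} (hd : d ≤ K) {σ : ℝ} (hσ : 0 < σ) {V D ω R e : ℕ → ℝ}
    (he : ∀ l, 0 ≤ e l) (heK : e (K + 1) = 0)
    (hV0 : ∀ l, d ≤ l → l < K → 0 ≤ V l)
    (hV : ∀ l, d ≤ l → l < K →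
      V l ≤ (R (l + 1) - R l) + 4 * (e (l + 1) + e (l + 2)) * ((K : ℝ) + 1) / σ)
    (hD0 : ∀ l, d ≤ l → l < K → 0 ≤ D l)
    (hD : ∀ l, d ≤ l → l < K →
      ((l : ℝ) + 1) / ((K : ℝ) + 1) * D l ≤ 1 / ((K : ℝ) + 1) * V l + 2 * (e l + e (l + 1)) / σ)
    (hR0 : 0 ≤ R d) (hR1 : R K ≤ 1) (hω0 : 0 ≤ ω d) (hω1 : ω K ≤ 1)
    (hω : ∀ l, d ≤ l → l < K → ω l ≤ ω (l + 1)) :
    ∑ l ∈ Finset.Ico d K, 1 / ((K : ℝ) + 1) * (√(D l) + √(ω (l + 1) - ω l) * √(V l) +
      3 * (e l + e (l + 1)) * ((K : ℝ) + 1) / σ) ≤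
      √(1 + Real.log ((K : ℝ) + 1)) *
        (2 + 16 * ((K : ℝ) + 1) * (∑ l ∈ Finset.Ico d (K + 1), e l) / σ) / ((K : ℝ) + 1) := by
  have hK : (0 : ℝ) < (K : ℝ) + 1 := by positivity
  obtain ⟨L, hL⟩ : ∃ L, L = ((K : ℝ) + 1) / σ := ⟨_, rfl⟩
  have hL0 : 0 ≤ L := by rw [hL]; positivity
  obtain ⟨E, hE⟩ : ∃ E, E = ∑ l ∈ Finset.Ico d (K + 1), e l := ⟨_, rfl⟩
  have hE0 : 0 ≤ E := by rw [hE]; exact Finset.sum_nonneg fun i _ => he i
  have e0 := rsum_e0 he d K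
  have e1 := rsum_e1 he d K
  have e2 := rsum_e2 he hd heK
  rw [← hE] at e0 e1 e2
  have hy : 0 ≤ L * E := mul_nonneg hL0 hE0
  -- the sum of the `V l`
  have hVs : ∑ l ∈ Finset.Ico d K, V l ≤ 1 + 8 * (L * E) := by
    have h1 : ∑ l ∈ Finset.Ico d K, V l ≤
        ∑ l ∈ Finset.Ico d K, ((R (l + 1) - R l) + 4 * L * (e (l + 1) + e (l + 2))) := by
      refine Finset.sum_le_sum fun l hl => ?_
      rw [Finset.mem_Ico] at hl
      refine (hV l hl.1 hl.2).trans (le_of_eq ?_)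
      rw [hL]
      ring
    rw [Finset.sum_add_distrib, rsum_tel R hd, ← Finset.mul_sum, Finset.sum_add_distrib] at h1
    have h2 : 4 * L * (∑ l ∈ Finset.Ico d K, e (l + 1) + ∑ l ∈ Finset.Ico d K, e (l + 2)) ≤
        4 * L * (E + E) := mul_le_mul_of_nonneg_left (add_le_add e1 e2) (by positivity)
    linarith
  have hes : ∑ l ∈ Finset.Ico d K, (e l + e (l + 1)) ≤ 2 * E := by
    rw [Finset.sum_add_distrib]
    linarith
  have hV0' : ∀ l ∈ Finset.Ico d K, 0 ≤ V l := fun l hl => by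
    rw [Finset.mem_Ico] at hl
    exact hV0 l hl.1 hl.2
  have hg0 : ∀ l ∈ Finset.Ico d K, 0 ≤ V l + 2 * L * (e l + e (l + 1)) := fun l hl =>
    add_nonneg (hV0' l hl) (mul_nonneg (by positivity) (add_nonneg (he _) (he _)))
  have hgs : ∑ l ∈ Finset.Ico d K, (V l + 2 * L * (e l + e (l + 1))) ≤
      1 + 2 * (6 * (L * E)) := by
    rw [Finset.sum_add_distrib, ← Finset.mul_sum]
    have h2 : 2 * L * ∑ l ∈ Finset.Ico d K, (e l + e (l + 1)) ≤ 2 * L * (2 * E) :=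
      mul_le_mul_of_nonneg_left hes (by positivity)
    linarith
  have hlog : 1 ≤ √(1 + Real.log ((K : ℝ) + 1)) := by
    rw [Real.one_le_sqrt]
    have : 0 ≤ Real.log ((K : ℝ) + 1) := Real.log_nonneg (by
      have : (0 : ℝ) ≤ K := Nat.cast_nonneg K
      linarith)
    linarith
  have hlog0 : 0 ≤ √(1 + Real.log ((K : ℝ) + 1)) := by linarith
  -- the first sum
  have s1 : ∑ l ∈ Finset.Ico d K, √(D l) ≤
      √(1 + Real.log ((K : ℝ) + 1)) * (1 + 6 * (L * E)) := by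
    calc ∑ l ∈ Finset.Ico d K, √(D l)
        ≤ ∑ l ∈ Finset.Ico d K, √(1 / ((l : ℝ) + 1)) * √(V l + 2 * L * (e l + e (l + 1))) := by
          refine Finset.sum_le_sum fun l hl => ?_
          have hl' := Finset.mem_Ico.1 hl
          rw [← Real.sqrt_mul (by positivity)]
          refine Real.sqrt_le_sqrt ?_
          rw [hL]
          exact rsum_D (hD l hl'.1 hl'.2)
      _ ≤ √(∑ l ∈ Finset.Ico d K, 1 / ((l : ℝ) + 1)) *
          √(∑ l ∈ Finset.Ico d K, (V l + 2 * L * (e l + e (l + 1)))) :=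
          rsum_cs _ (fun i _ => by positivity) hg0
      _ ≤ √(1 + Real.log ((K : ℝ) + 1)) * (1 + 6 * (L * E)) := by
          refine mul_le_mul (Real.sqrt_le_sqrt (rsum_harm d K)) ?_ (Real.sqrt_nonneg _) hlog0
          exact (Real.sqrt_le_sqrt hgs).trans (rsum_sqrt (by positivity))
  -- the second sum
  have s2 : ∑ l ∈ Finset.Ico d K, √(ω (l + 1) - ω l) * √(V l) ≤
      √(1 + Real.log ((K : ℝ) + 1)) * (1 + 4 * (L * E)) := by
    calc ∑ l ∈ Finset.Ico d K, √(ω (l + 1) - ω l) * √(V l)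
        ≤ √(∑ l ∈ Finset.Ico d K, (ω (l + 1) - ω l)) * √(∑ l ∈ Finset.Ico d K, V l) :=
          rsum_cs _ (fun l hl => by
            have hl' := Finset.mem_Ico.1 hl
            linarith [hω l hl'.1 hl'.2]) hV0'
      _ ≤ 1 * (1 + 4 * (L * E)) := by
          refine mul_le_mul ?_ ?_ (Real.sqrt_nonneg _) zero_le_one
          · rw [rsum_tel ω hd, Real.sqrt_le_one]
            linarith
          · refine (Real.sqrt_le_sqrt (hVs.trans (le_of_eq ?_))).trans
              (rsum_sqrt (y := 4 * (L * E)) (by positivity))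
            ring
      _ ≤ √(1 + Real.log ((K : ℝ) + 1)) * (1 + 4 * (L * E)) :=
          mul_le_mul_of_nonneg_right hlog (by positivity)
  -- the third sum
  have s3 : ∑ l ∈ Finset.Ico d K, 3 * (e l + e (l + 1)) * ((K : ℝ) + 1) / σ ≤
      √(1 + Real.log ((K : ℝ) + 1)) * (6 * (L * E)) := by
    have h1 : ∑ l ∈ Finset.Ico d K, 3 * (e l + e (l + 1)) * ((K : ℝ) + 1) / σ =
        3 * L * ∑ l ∈ Finset.Ico d K, (e l + e (l + 1)) := by
      rw [Finset.mul_sum]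
      refine Finset.sum_congr rfl fun l _ => ?_
      rw [hL]
      ring
    rw [h1]
    have h2 : 3 * L * ∑ l ∈ Finset.Ico d K, (e l + e (l + 1)) ≤ 3 * L * (2 * E) :=
      mul_le_mul_of_nonneg_left hes (by positivity)
    have h3 : 1 * (6 * (L * E)) ≤ √(1 + Real.log ((K : ℝ) + 1)) * (6 * (L * E)) :=
      mul_le_mul_of_nonneg_right hlog (by positivity)
    linarith
  rw [← hE, ← Finset.mul_sum, Finset.sum_add_distrib, Finset.sum_add_distrib]
  have h5 : √(1 + Real.log ((K : ℝ) + 1)) * (2 + 16 * ((K : ℝ) + 1) * E / σ) / ((K : ℝ) + 1) =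
      1 / ((K : ℝ) + 1) * (√(1 + Real.log ((K : ℝ) + 1)) * (2 + 16 * (L * E))) := by
    rw [hL]
    ring
  rw [h5]
  refine mul_le_mul_of_nonneg_left ?_ (by positivity)
  linarith

end Vale.Agent.P146.Ub.Ld
end

section

/-!
# P146, Rt: exponential moments and variance from the rate of the lower bound
-/

open MeasureTheory ProbabilityTheory Filter Topology

namespace Vale.Agent.P146.Sx

open Vale.Agent.P157.Par (Path Exponents)
open Vale.Agent.P146.Sk (PSK)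
open Vale.Agent.P146.Ub

theorem one_add_log_le {n : ℕ} (hn : 1 ≤ n) {e : ℝ} (he : 0 < e) :
    1 + Real.log n ≤ (1 + 1 / e) * (n : ℝ) ^ e := by
  have hn1 : (1 : ℝ) ≤ n := by exact_mod_cast hn
  have h1 := Real.log_le_rpow_div (by linarith : (0 : ℝ) ≤ n) he
  have h2 : 1 ≤ (n : ℝ) ^ e := Real.one_le_rpow hn1 he.le
  have e1 : (1 + 1 / e) * (n : ℝ) ^ e = (n : ℝ) ^ e + (n : ℝ) ^ e / e := by ring
  rw [e1]
  linarith

theorem rt_moment_of {β : ℝ} (hβ : 1 ≤ β) (hlow : ∃ C : ℝ, 1 ≤ C ∧ ∀ n : ℕ, 1 ≤ n →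
    n * pv β ≤ ∫ g, freeEnergy n β g ∂(disorder n) +
      C * (n : ℝ) ^ (6 / 7 : ℝ) * (1 + Real.log n) ^ 2) : ∃ C : ℝ, 1 ≤ C ∧
    (∀ n : ℕ, 1 ≤ n → ∀ x : ℝ, 0 < x → x ≤ 1 →
      Real.log (∫ g, Real.exp (x * freeEnergy n β g) ∂(disorder n)) ≤
        x * (n * pv β) + C * n * x ^ 6) ∧
    (∀ n : ℕ, 1 ≤ n → ∫ g, freeEnergy n β g ∂(disorder n) ≤ n * pv β) ∧
    (∀ n : ℕ, 1 ≤ n → n * pv β ≤ ∫ g, freeEnergy n β g ∂(disorder n) +
      C * (n : ℝ) ^ (7 / 8 : ℝ)) := by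
  obtain ⟨C₁, hC₁, h1, h2, -⟩ := moment hβ
  obtain ⟨C₂, hC₂, h3⟩ := hlow
  refine ⟨max C₁ (C₂ * 113 ^ 2), hC₁.trans (le_max_left _ _), fun n hn x hx hx1 => ?_, h2,
    fun n hn => ?_⟩
  · refine (h1 n hn x hx hx1).trans ?_
    have hn0 : (0 : ℝ) ≤ n := Nat.cast_nonneg n
    have : C₁ * n * x ^ 6 ≤ max C₁ (C₂ * 113 ^ 2) * n * x ^ 6 := by
      gcongr
      exact le_max_left _ _
    linarith
  · have hn1 : (1 : ℝ) ≤ n := by exact_mod_cast hn
    have hn0 : (0 : ℝ) < n := by linarith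
    refine (h3 n hn).trans ?_
    have hl0 : 0 ≤ Real.log n := Real.log_nonneg hn1
    have h4 : 1 + Real.log n ≤ 113 * (n : ℝ) ^ (1 / 112 : ℝ) := by
      have := one_add_log_le hn (e := 1 / 112) (by norm_num)
      refine this.trans (le_of_eq ?_)
      norm_num
    have h5 : (1 + Real.log n) ^ 2 ≤ 113 ^ 2 * (n : ℝ) ^ (1 / 56 : ℝ) := by
      refine (pow_le_pow_left₀ (by linarith) h4 2).trans (le_of_eq ?_)
      rw [mul_pow, ← Real.rpow_natCast ((n : ℝ) ^ (1 / 112 : ℝ)), ← Real.rpow_mul hn0.le]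
      norm_num
    have h6 : (n : ℝ) ^ (6 / 7 : ℝ) * (n : ℝ) ^ (1 / 56 : ℝ) = (n : ℝ) ^ (7 / 8 : ℝ) := by
      rw [← Real.rpow_add hn0]
      norm_num
    have h7 : C₂ * (n : ℝ) ^ (6 / 7 : ℝ) * (1 + Real.log n) ^ 2 ≤
        C₂ * 113 ^ 2 * (n : ℝ) ^ (7 / 8 : ℝ) := by
      have h8 : 0 ≤ C₂ * (n : ℝ) ^ (6 / 7 : ℝ) := by positivity
      refine (mul_le_mul_of_nonneg_left h5 h8).trans (le_of_eq ?_)
      rw [← h6]
      ring
    have h9 : C₂ * 113 ^ 2 * (n : ℝ) ^ (7 / 8 : ℝ) ≤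
        max C₁ (C₂ * 113 ^ 2) * (n : ℝ) ^ (7 / 8 : ℝ) :=
      mul_le_mul_of_nonneg_right (le_max_right _ _) (by positivity)
    linarith

theorem rt_var_of {β : ℝ} (hβ : 1 ≤ β) (hlow : ∃ C : ℝ, 1 ≤ C ∧ ∀ n : ℕ, 1 ≤ n →
    n * pv β ≤ ∫ g, freeEnergy n β g ∂(disorder n) +
      C * (n : ℝ) ^ (6 / 7 : ℝ) * (1 + Real.log n) ^ 2) : ∃ C : ℝ, 1 ≤ C ∧ ∀ n : ℕ, 1 ≤ n →
    Var[freeEnergy n β; disorder n] ≤ C * (n : ℝ) ^ (8 / 9 : ℝ) := by
  obtain ⟨C₁, hC₁, hmom, -, -⟩ := moment hβ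
  obtain ⟨C₂, hC₂, hlo⟩ := hlow
  set C : ℝ := max C₁ C₂ with hC
  have hC0 : 1 ≤ C := hC₁.trans (le_max_left _ _)
  refine ⟨(4 * C + β ^ 2) * 946 ^ 3, ?_, fun n hn => ?_⟩
  · have : 0 ≤ β ^ 2 := sq_nonneg β
    nlinarith
  have hn1 : (1 : ℝ) ≤ n := by exact_mod_cast hn
  have hn0 : (0 : ℝ) < n := by linarith
  have hl0 : 0 ≤ Real.log n := Real.log_nonneg hn1
  set L : ℝ := 1 + Real.log n with hL
  have hL1 : 1 ≤ L := by linarith
  have hLsq : 1 ≤ L ^ 2 := one_le_pow₀ hL1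
  set y : ℝ := (n : ℝ) ^ (1 / 35 : ℝ) with hy
  have hy1 : 1 ≤ y := Real.one_le_rpow hn1 (by norm_num)
  have hy0 : 0 < y := by linarith
  set Y : ℝ := (n : ℝ) ^ (31 / 35 : ℝ) with hY
  have hY1 : 1 ≤ Y := Real.one_le_rpow hn1 (by norm_num)
  have hYy : Y * y ^ 4 = n := by
    rw [hY, hy, ← Real.rpow_natCast, ← Real.rpow_mul hn0.le, ← Real.rpow_add hn0]
    norm_num
  have hy2 : (n : ℝ) ^ (6 / 7 : ℝ) = Y / y := by
    rw [hY, hy, ← Real.rpow_sub hn0]
    norm_num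
  set x : ℝ := 1 / y with hx
  have hx0 : 0 < x := by positivity
  have hx1 : x ≤ 1 := by rw [hx, div_le_one hy0]; exact hy1
  have hexp : ∫ g, Real.exp (x * freeEnergy n β g) ∂(disorder n) ≤
      Real.exp (x * (∫ g, freeEnergy n β g ∂(disorder n)) + x ^ 2 * (4 * C * Y * L ^ 2) / 2) := by
    rcases le_or_gt (∫ g, Real.exp (x * freeEnergy n β g) ∂(disorder n)) 0 with h0 | h0
    · exact h0.trans (Real.exp_pos _).le
    rw [← Real.log_le_iff_le_exp h0]
    refine (hmom n hn x hx0 hx1).trans ?_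
    have h1 := mul_le_mul_of_nonneg_left (hlo n hn) hx0.le
    have h2 : x * (C₂ * (n : ℝ) ^ (6 / 7 : ℝ) * L ^ 2) = x ^ 2 * (C₂ * Y * L ^ 2) := by
      rw [hy2, hx]; field_simp
    have h3 : C₁ * n * x ^ 6 = x ^ 2 * (C₁ * Y) := by
      rw [← hYy, hx]; field_simp
    rw [mul_add, h2] at h1
    rw [h3]
    have h4 : x ^ 2 * (C₂ * Y * L ^ 2) ≤ x ^ 2 * (C * Y * L ^ 2) := by
      gcongr
      exact le_max_right _ _
    have h5 : x ^ 2 * (C₁ * Y) ≤ x ^ 2 * (C * Y * L ^ 2) := by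
      have h6 : C₁ * Y ≤ C * Y := mul_le_mul_of_nonneg_right (le_max_left _ _) (by linarith)
      have h7 : C * Y * 1 ≤ C * Y * L ^ 2 := mul_le_mul_of_nonneg_left hLsq (by positivity)
      exact mul_le_mul_of_nonneg_left (by linarith) (by positivity)
    linarith
  have hV := (Cv.var_freeEnergy_le n β hx0 hexp (u := 1 / n) (by positivity)
    (by rw [div_le_one hn0]; exact hn1)).2
  refine hV.trans ?_
  have h1 : β ^ 2 * n / 2 * (1 / n) = β ^ 2 / 2 := by field_simp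
  have h2 : -Real.log (1 / (n : ℝ)) = Real.log n := by rw [one_div, Real.log_inv, neg_neg]
  rw [h1, h2]
  have hb : 0 ≤ β ^ 2 := sq_nonneg β
  have hL3 : L ^ 3 ≤ 946 ^ 3 * (n : ℝ) ^ (1 / 315 : ℝ) := by
    have h4 : L ≤ 946 * (n : ℝ) ^ (1 / 945 : ℝ) := by
      have := one_add_log_le hn (e := 1 / 945) (by norm_num)
      refine this.trans (le_of_eq ?_)
      norm_num
    refine (pow_le_pow_left₀ (by linarith) h4 3).trans (le_of_eq ?_)
    rw [mul_pow, ← Real.rpow_natCast ((n : ℝ) ^ (1 / 945 : ℝ)), ← Real.rpow_mul hn0.le]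
    norm_num
  have hYL : Y * L ^ 3 ≤ 946 ^ 3 * (n : ℝ) ^ (8 / 9 : ℝ) := by
    have h6 : Y * (n : ℝ) ^ (1 / 315 : ℝ) = (n : ℝ) ^ (8 / 9 : ℝ) := by
      rw [hY, ← Real.rpow_add hn0]
      norm_num
    rw [← h6]
    refine (mul_le_mul_of_nonneg_left hL3 (by linarith : (0 : ℝ) ≤ Y)).trans (le_of_eq ?_)
    ring
  have hYL1 : 1 ≤ Y * L ^ 3 := by
    have := one_le_pow₀ hL1 (n := 3)
    nlinarith
  have h3 : 4 * C * Y * L ^ 2 * Real.log n ≤ 4 * C * (Y * L ^ 3) := by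
    have h4 : Real.log n ≤ L := by linarith
    have h5 : 4 * C * Y * L ^ 2 * Real.log n ≤ 4 * C * Y * L ^ 2 * L :=
      mul_le_mul_of_nonneg_left h4 (by positivity)
    refine h5.trans (le_of_eq ?_)
    ring
  have h4 : β ^ 2 / 2 ≤ β ^ 2 * (Y * L ^ 3) := by nlinarith
  have h5 : (4 * C + β ^ 2) * (Y * L ^ 3) ≤ (4 * C + β ^ 2) * (946 ^ 3 * (n : ℝ) ^ (8 / 9 : ℝ)) :=
    mul_le_mul_of_nonneg_left hYL (by positivity)
  calc β ^ 2 / 2 + 4 * C * Y * L ^ 2 * Real.log n ≤ (4 * C + β ^ 2) * (Y * L ^ 3) := by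
        linarith
    _ ≤ (4 * C + β ^ 2) * (946 ^ 3 * (n : ℝ) ^ (8 / 9 : ℝ)) := h5
    _ = (4 * C + β ^ 2) * 946 ^ 3 * (n : ℝ) ^ (8 / 9 : ℝ) := by ring

end Vale.Agent.P146.Sx
end

section

/-!
# P146, Rt: Gaussian concentration: an exponential moment of the free energy by its mean
-/

open MeasureTheory ProbabilityTheory
open scoped ENNReal

namespace Vale.Agent.P146.Sx

open Vale.Agent.P146.Ub.Cv

/-- the exponential moment in `ℝ≥0∞` -/
theorem rg_lint (n : ℕ) (β : ℝ) {x : ℝ} (hx : 0 ≤ x) :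
    ∫⁻ g, ENNReal.ofReal (Real.exp (x * freeEnergy n β g)) ∂(disorder n) ≤
      ENNReal.ofReal (Real.exp (x * (∫ g, freeEnergy n β g ∂(disorder n)) +
        x ^ 2 * (β ^ 2 * n / 2))) := by
  have lF := lin_freeEnergy n β
  have hprob : IsProbabilityMeasure (gpi (Pair n)) := by unfold gpi; infer_instance
  have h := Lt.conv_exp (ι := Pair n) (f := freeEnergy n β) (Q := fun _ => β ^ 2 * n / 2)
    lF.cont.measurable measurable_const lF.dom.integrable (integrable_const _) (a := -x) ?_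
  · have e1 : ∀ g, -(-x * freeEnergy n β g) = x * freeEnergy n β g := fun g => by ring
    simp only [e1] at h
    rw [integral_const, probReal_univ, one_smul] at h
    refine h.trans_eq ?_
    congr 2
    have e2 : (∫ g, freeEnergy n β g ∂(gpi (Pair n))) = ∫ g, freeEnergy n β g ∂(disorder n) := rfl
    rw [e2]
    ring
  · intro u v
    have ht := tangent_freeEnergy n β u (fun i => v i - u i)
    have e : (fun p => u p + (v p - u p)) = v := by funext p; ring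
    rw [e] at ht
    have hM := sum_gradF_sq n β u
    have h1 : ∑ p, x * (gradF n β p u * (u p - v p)) ≤
        ∑ p, (x ^ 2 * gradF n β p u ^ 2 + (u p - v p) ^ 2 / 4) := by
      refine Finset.sum_le_sum fun p _ => ?_
      nlinarith [sq_nonneg (x * gradF n β p u - (u p - v p) / 2)]
    rw [Finset.sum_add_distrib, ← Finset.mul_sum, ← Finset.mul_sum, ← Finset.sum_div] at h1
    have h2 : ∑ p, gradF n β p u * (v p - u p) = -∑ p, gradF n β p u * (u p - v p) := by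
      rw [← Finset.sum_neg_distrib]
      exact Finset.sum_congr rfl fun p _ => by ring
    rw [h2] at ht
    have h3 := mul_le_mul_of_nonneg_left hM (sq_nonneg x)
    have h4 : x * (freeEnergy n β u - freeEnergy n β v) ≤
        x * ∑ p, gradF n β p u * (u p - v p) :=
      mul_le_mul_of_nonneg_left (by linarith) hx
    rw [neg_sq]
    linarith

theorem rt_gauss (n : ℕ) (β : ℝ) {x : ℝ} (hx : 0 ≤ x) :
    Real.log (∫ g, Real.exp (x * freeEnergy n β g) ∂(disorder n)) ≤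
      x * (∫ g, freeEnergy n β g ∂(disorder n)) + 2 * β ^ 2 * n * x ^ 2 := by
  have lF := lin_freeEnergy n β
  have hprob : IsProbabilityMeasure (disorder n) := by unfold disorder; infer_instance
  have h := rg_lint n β hx
  have hm : Measurable fun g => Real.exp (x * freeEnergy n β g) :=
    Real.measurable_exp.comp (lF.cont.measurable.const_mul x)
  have hi : Integrable (fun g => Real.exp (x * freeEnergy n β g)) (disorder n) := by
    refine ⟨hm.aestronglyMeasurable, ?_⟩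
    rw [hasFiniteIntegral_iff_ofReal (Filter.Eventually.of_forall fun g => (Real.exp_pos _).le)]
    exact h.trans_lt ENNReal.ofReal_lt_top
  have hpos := integral_exp_pos hi
  have hle : ∫ g, Real.exp (x * freeEnergy n β g) ∂(disorder n) ≤
      Real.exp (x * (∫ g, freeEnergy n β g ∂(disorder n)) + x ^ 2 * (β ^ 2 * n / 2)) := by
    rw [integral_eq_lintegral_of_nonneg_ae (Filter.Eventually.of_forall fun g =>
      (Real.exp_pos _).le) hm.aestronglyMeasurable]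
    exact ENNReal.toReal_le_of_le_ofReal (Real.exp_pos _).le h
  have h2 := Real.log_le_log hpos hle
  rw [Real.log_exp] at h2
  have h3 : x ^ 2 * (β ^ 2 * n / 2) ≤ 2 * β ^ 2 * n * x ^ 2 := by
    have : 0 ≤ x ^ 2 * (β ^ 2 * (n : ℝ)) := by positivity
    linarith
  linarith

end Vale.Agent.P146.Sx
end

section

/-!
# P146, Rt: the lower tail of the free energy from a bound of the variance
-/

open MeasureTheory ProbabilityTheory Filter Topology

namespace Vale.Agent.P146.Sx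

/-- `Var F_n ≤ C n^(8/9)` gives `P(F_n ≤ E F_n - t) ≤ exp (-a t² / n^(19/20))` -/
theorem rt_low_dev_of {β : ℝ} (hβ : 1 ≤ β)
    (hvar : ∃ C : ℝ, 1 ≤ C ∧ ∀ n : ℕ, 1 ≤ n →
      Var[freeEnergy n β; disorder n] ≤ C * (n : ℝ) ^ (8 / 9 : ℝ)) :
    ∃ a : ℝ, 0 < a ∧ ∀ n : ℕ, 1 ≤ n → ∀ t : ℝ, 0 ≤ t →
    (disorder n).real {g | freeEnergy n β g ≤ ∫ g, freeEnergy n β g ∂(disorder n) - t} ≤
      Real.exp (-(a * t ^ 2 / (n : ℝ) ^ (19 / 20 : ℝ))) := by
  obtain ⟨C, hC1, hC⟩ := hvar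
  have hβ0 : 0 < β := by linarith
  have hC0 : 0 < C := by linarith
  set D : ℝ := √(C * β ^ 2 / 2) with hD
  have hDpos : 0 < D := Real.sqrt_pos.2 (by positivity)
  refine ⟨1 / (8 * D), by positivity, fun n hn t ht => ?_⟩
  have hn1 : (1 : ℝ) ≤ n := by exact_mod_cast hn
  have hn0 : (0 : ℝ) < n := by linarith
  have hVpos : 0 < C * (n : ℝ) ^ (8 / 9 : ℝ) := by positivity
  have h := Vale.Agent.P146.Lt.sk_low hβ0 hn hVpos (hC n hn) ht
  refine h.trans (Real.exp_le_exp.2 (neg_le_neg ?_))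
  have hsq : √(C * (n : ℝ) ^ (8 / 9 : ℝ) * (β ^ 2 * n / 2)) ≤ D * (n : ℝ) ^ (19 / 20 : ℝ) := by
    have e1 : (n : ℝ) ^ (8 / 9 : ℝ) * n ≤ ((n : ℝ) ^ (19 / 20 : ℝ)) ^ 2 := by
      rw [← Real.rpow_natCast, ← Real.rpow_mul hn0.le, ← Real.rpow_add_one hn0.ne']
      exact Real.rpow_le_rpow_of_exponent_le hn1 (by norm_num)
    have e2 : C * (n : ℝ) ^ (8 / 9 : ℝ) * (β ^ 2 * n / 2) ≤ (D * (n : ℝ) ^ (19 / 20 : ℝ)) ^ 2 := by
      have e3 : D ^ 2 = C * β ^ 2 / 2 := Real.sq_sqrt (by positivity)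
      rw [mul_pow, e3]
      calc _ = C * β ^ 2 / 2 * ((n : ℝ) ^ (8 / 9 : ℝ) * n) := by ring
        _ ≤ _ := by gcongr
    calc _ ≤ √((D * (n : ℝ) ^ (19 / 20 : ℝ)) ^ 2) := Real.sqrt_le_sqrt e2
      _ = _ := Real.sqrt_sq (by positivity)
  have hspos : 0 < √(C * (n : ℝ) ^ (8 / 9 : ℝ) * (β ^ 2 * n / 2)) :=
    Real.sqrt_pos.2 (by positivity)
  calc 1 / (8 * D) * t ^ 2 / (n : ℝ) ^ (19 / 20 : ℝ)
      = t ^ 2 / (8 * (D * (n : ℝ) ^ (19 / 20 : ℝ))) := by field_simp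
    _ ≤ _ := by gcongr

end Vale.Agent.P146.Sx
end
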