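import Mathlib
import Vale.Agent.P146.Bd5.B1
import Vale.Agent.P146.Bd3.B5
import Vale.Agent.P146.Bd4.B5
import Vale.Agent.P146.Bd3.B4

set_option linter.all false

section

/-!
# P146, Rt: the variance of `u_l`, one error per level (the proof of `Fld.sync`, P157/LvPair.lean)
-/

open MeasureTheory ProbabilityTheory Filter Topology

namespace Vale.Agent.P146.Ub.Ld

set_option linter.unusedSectionVars false

open Vale.Agent.P157 Vale.Agent.P157.Lv Vale.Agent.P157.Lv.Sy Vale.Agent.P157.Lv.Fld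
open Vale.Agent.P157.Par (Path Exponents incr spinPart)
open Vale.Agent.P146 (Pair freeEnergy disorder)

section gen

variable {ι X : Type} [Fintype ι] [DecidableEq ι] [Fintype X] [DecidableEq X] [Nonempty X] {N : ℕ}
  {S : Sy ι X} {D : ι → (ι → ℝ) → X → ℝ} {φ : X → Fin N → ℝ} {zc : ℕ → Fin N → ι} {s : ℕ → ℝ}

theorem gV_nonneg (F : Fld S D φ zc s) {l : ℕ} (hl : l ≤ S.K) : 0 ≤ gV S φ l := by
  have hS := F.hreg
  have nu := nh_uu (φ := φ) hS hl
  have nc : ∀ c : ℝ, Nh (ι := ι) (X := X) (fun _ _ => c) := fun c => Nh.fst (EG.const c)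
  rw [gV, ← hS.Ex_const 0]
  exact hS.Ex_mono (nc 0) (Nh.pow (Nh.sub nu (nc _)) 2) fun z x => sq_nonneg _

/-- `V_l ≤ (R_{l+1} - R_l) + 2 G`, `π |G| ≤ 2 (e_{l+1} + e_{l+2}) / σ` -/
theorem gsync_V (F : Fld S D φ zc s) {d : ℕ} {σ π : ℝ} (hσ : 0 < σ) (hπ : 0 < π)
    (hs : ∀ l, d ≤ l → l ≤ S.K → σ ≤ s l) (hp : ∀ l ≤ S.K, π ≤ S.p l) {e : ℕ → ℝ}
    (he : ∀ l, 0 ≤ e l)
    (hc : ∀ l, d ≤ l → l ≤ S.K → ∃ c, S.Ex (fun z x => |hz φ zc l z x - c|) ≤ e l)
    {l : ℕ} (hd : d ≤ l) (hl : l < S.K) :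
    gV S φ l ≤ (S.Rl φ (l + 1) - S.Rl φ l) + 4 * (e (l + 1) + e (l + 2)) / (σ * π) := by
  have hS := F.hreg
  have hN := F.N_pos
  have hlK := hl.le
  set R : ℕ → ℝ := fun k => S.Rl φ k with hR
  set W : ℕ → ℝ := fun k => S.Ex (fun z x => uu S φ l z x * uu S φ k z x) with hW
  set G : ℕ → ℝ := fun k => W k - R l * R k with hG
  set A : ℕ → ℝ := fun j => ∑ k ∈ Finset.Ico j (S.K + 1), S.p k * G k with hA
  -- consequences of (A)
  have cA : ∀ j, l < j → j ≤ S.K + 1 → |A j| ≤ 2 * e j / σ := by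
    intro j hlj hj
    rcases Nat.lt_or_ge j (S.K + 1) with hj' | hj'
    · have hjK : j ≤ S.K := by omega
      obtain ⟨c, hc'⟩ := hc j (by omega) hjK
      have h1 := F.dev (j := j) hlK hc'
      have h2 := F.ident_A hlj hjK
      have h3 := F.Ex_hz hjK
      have e1 : S.Ex (fun z x => hz φ zc j z x * uu S φ l z x) - S.Ex (hz φ zc j) * S.Rl φ l =
          - (s j * A j) := by
        have e2 : S.Ex (fun z x => hz φ zc j z x * uu S φ l z x) =
            s j * (R l - ∑ i ∈ Finset.Ico j (S.K + 1), S.p i * W i) := h2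
        rw [e2, h3]
        have e3 : A j = ∑ i ∈ Finset.Ico j (S.K + 1), S.p i * W i -
            R l * ∑ i ∈ Finset.Ico j (S.K + 1), S.p i * R i := by
          simp only [hA, hG]
          rw [Finset.mul_sum, ← Finset.sum_sub_distrib]
          refine Finset.sum_congr rfl fun i _ => ?_
          ring
        rw [e3]
        simp only [hR]
        ring
      rw [e1, abs_neg, abs_mul, abs_of_nonneg (F.pos j hjK)] at h1
      rw [le_div_iff₀ hσ]
      have h4 := mul_le_mul_of_nonneg_left (hs j (by omega) hjK) (abs_nonneg (A j))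
      rw [mul_comm (|A j|) (s j)] at h4
      exact h4.trans h1
    · have : A j = 0 := by
        simp only [hA]
        rw [Finset.Ico_eq_empty (by omega), Finset.sum_empty]
      rw [this, abs_zero]
      have := he j
      positivity
  -- the covariance with the next level
  have hG1 : G (l + 1) ≤ 2 * (e (l + 1) + e (l + 2)) / (σ * π) := by
    have e1 : A (l + 1) = S.p (l + 1) * G (l + 1) + A (l + 1 + 1) := by
      simp only [hA]
      rw [Finset.sum_eq_sum_Ico_succ_bot (by omega : l + 1 < S.K + 1)]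
    have h1 := abs_le.mp (cA (l + 1) (by omega) (by omega))
    have h2 := abs_le.mp (cA (l + 1 + 1) (by omega) (by omega))
    have h3 := hp (l + 1) (by omega)
    have h4 : S.p (l + 1) * G (l + 1) ≤ 2 * (e (l + 1) + e (l + 2)) / σ := by
      have : 2 * (e (l + 1) + e (l + 2)) / σ = 2 * e (l + 1) / σ + 2 * e (l + 1 + 1) / σ := by
        ring
      rw [this]
      linarith only [e1, h1.2, h2.1]
    have h6 := he (l + 1)
    have h7 := he (l + 2)
    by_cases hg : G (l + 1) ≤ 0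
    · exact hg.trans (by positivity)
    · push Not at hg
      rw [← div_div, le_div_iff₀ hπ]
      have h5 := mul_le_mul_of_nonneg_left h3 hg.le
      rw [mul_comm (G (l + 1)) (S.p (l + 1))] at h5
      exact h5.trans h4
  -- the variance of `u_l`
  have nu := nh_uu (φ := φ) hS hlK
  have nu' := nh_uu (φ := φ) hS (show l + 1 ≤ S.K from hl)
  have nc : ∀ c : ℝ, Nh (ι := ι) (X := X) (fun _ _ => c) := fun c => Nh.fst (EG.const c)
  set V : ℝ := W l - R l * R l with hV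
  have hV1 : S.Ex (fun z x => (uu S φ l z x - R l) ^ 2) = V := by
    have e1 : (fun z x => (uu S φ l z x - R l) ^ 2) =
        fun z x => (uu S φ l z x * uu S φ l z x - 2 * R l * uu S φ l z x) + R l ^ 2 := by
      funext z x
      ring
    rw [e1, hS.Ex_add (Nh.sub (Nh.mul nu nu) (Nh.const_mul _ nu)) (nc _),
      hS.Ex_sub (Nh.mul nu nu) (Nh.const_mul _ nu), Sy.Ex_const_mul, hS.Ex_const, F.Ex_uu hlK]
    simp only [hV, hR, hW]
    ring
  have hdif : S.Ex (fun z x => (uu S φ l z x - uu S φ (l + 1) z x) ^ 2) ≤ R (l + 1) - R l := by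
    rw [← F.Rl_sub hl, ← Sy.Ex_const_mul]
    refine hS.Ex_mono (Nh.pow (Nh.sub nu nu') 2) (Nh.fst (EG.const_mul _ (EG.sum _ fun i _ =>
      ((eg_mg hS (show l + 1 ≤ S.K from hl) i).sub (eg_mg hS hlK i)).pow 2))) fun z x => ?_
    have e1 : uu S φ l z x - uu S φ (l + 1) z x =
        -(1 / N * ∑ a, (S.mg φ (l + 1) a z - S.mg φ l a z) * φ x a) := by
      simp_rw [uu, sub_mul]
      rw [Finset.sum_sub_distrib]
      ring
    rw [e1, neg_sq, mul_pow]
    have h1 := Finset.sum_mul_sq_le_sq_mul_sq Finset.univ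
      (fun a => S.mg φ (l + 1) a z - S.mg φ l a z) (φ x)
    rw [F.norm] at h1
    calc (1 / (N : ℝ)) ^ 2 * (∑ a, (S.mg φ (l + 1) a z - S.mg φ l a z) * φ x a) ^ 2
        ≤ (1 / (N : ℝ)) ^ 2 * ((∑ a, (S.mg φ (l + 1) a z - S.mg φ l a z) ^ 2) * N) :=
          mul_le_mul_of_nonneg_left h1 (by positivity)
      _ = 1 / N * ∑ i, (S.mg φ (l + 1) i z - S.mg φ l i z) ^ 2 := by
          field_simp
  have hV2 : V ≤ (R (l + 1) - R l) + 2 * G (l + 1) := by
    have e1 : V - G (l + 1) =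
        S.Ex (fun z x => (uu S φ l z x - R l) * (uu S φ l z x - uu S φ (l + 1) z x)) := by
      have e2 : (fun z x => (uu S φ l z x - R l) * (uu S φ l z x - uu S φ (l + 1) z x)) =
          fun z x => (uu S φ l z x * uu S φ l z x - uu S φ l z x * uu S φ (l + 1) z x) -
            (R l * uu S φ l z x - R l * uu S φ (l + 1) z x) := by
        funext z x
        ring
      rw [e2, hS.Ex_sub (Nh.sub (Nh.mul nu nu) (Nh.mul nu nu'))
        (Nh.sub (Nh.const_mul _ nu) (Nh.const_mul _ nu')), hS.Ex_sub (Nh.mul nu nu) (Nh.mul nu nu'),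
        hS.Ex_sub (Nh.const_mul _ nu) (Nh.const_mul _ nu'), Sy.Ex_const_mul, Sy.Ex_const_mul,
        F.Ex_uu hlK, F.Ex_uu (show l + 1 ≤ S.K from hl)]
      simp only [hV, hG, hR, hW]
      ring
    have h1 : S.Ex (fun z x => (uu S φ l z x - R l) * (uu S φ l z x - uu S φ (l + 1) z x)) ≤
        S.Ex (fun z x => 1 / 2 * (uu S φ l z x - R l) ^ 2 +
          1 / 2 * (uu S φ l z x - uu S φ (l + 1) z x) ^ 2) := by
      refine hS.Ex_mono (Nh.mul (Nh.sub nu (nc _)) (Nh.sub nu nu'))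
        (Nh.add (Nh.const_mul _ (Nh.pow (Nh.sub nu (nc _)) 2))
          (Nh.const_mul _ (Nh.pow (Nh.sub nu nu') 2))) fun z x => ?_
      have := two_mul_le_add_sq (uu S φ l z x - R l) (uu S φ l z x - uu S φ (l + 1) z x)
      linarith only [this]
    rw [hS.Ex_add (Nh.const_mul _ (Nh.pow (Nh.sub nu (nc _)) 2))
      (Nh.const_mul _ (Nh.pow (Nh.sub nu nu') 2)), Sy.Ex_const_mul, Sy.Ex_const_mul, hV1] at h1
    linarith
  have e4 : 4 * (e (l + 1) + e (l + 2)) / (σ * π) =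
      2 * (2 * (e (l + 1) + e (l + 2)) / (σ * π)) := by ring
  have e5 : gV S φ l = V := hV1
  rw [e5, e4]
  linarith only [hV2, hG1]

end gen

end Vale.Agent.P146.Ub.Ld
end

section

/-!
# P146, Rt: the weights `w_l = T_l ε · ε` (helper206)

`T_l` is a projection: `Ex w_l = Ex (T_l ε)²`, hence `0 ≤ Ex w_l ≤ 1`,
`Ex (w_l - w_{l+1})² ≤ Ex w_{l+1} - Ex w_l` and `pairEx_l (ε ε') = Ex w_l`.
-/

open MeasureTheory ProbabilityTheory Filter Topology

namespace Vale.Agent.P146.Ub.Ld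

set_option linter.unusedSectionVars false

open Vale.Agent.P157 Vale.Agent.P157.Lv Vale.Agent.P157.Lv.Sy Vale.Agent.P157.Lv.Fld

section gen

variable {ι X : Type} [Fintype ι] [DecidableEq ι] [Fintype X] [DecidableEq X] [Nonempty X] {N : ℕ}
  {S : Sy ι X} {D : ι → (ι → ℝ) → X → ℝ} {φ : X → Fin N → ℝ} {zc : ℕ → Fin N → ι} {s : ℕ → ℝ}

namespace W206

/-- the conditional average of `ε` -/
noncomputable def tt (S : Sy ι X) (ε : X → ℝ) (l : ℕ) : (ι → ℝ) → ℝ := S.T l (fun _ y => ε y)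

lemma eg_tt (hS : S.Reg) (ε : X → ℝ) {l : ℕ} (hl : l ≤ S.K) : EG (tt S ε l) :=
  hS.eg_T hl (Nh.snd ε)

lemma dep_tt (S : Sy ι X) (ε : X → ℝ) (l : ℕ) : Dep S.lev l (tt S ε l) :=
  S.dep_T l (fun _ x => ε x)

lemma gw_eq (S : Sy ι X) (ε : X → ℝ) (l : ℕ) : gw S ε l = fun z x => tt S ε l z * ε x := rfl

lemma nh_gw (hS : S.Reg) (ε : X → ℝ) {l : ℕ} (hl : l ≤ S.K) : Nh (gw S ε l) := by
  rw [gw_eq]
  exact Nh.mul (Nh.fst (eg_tt hS ε hl)) (Nh.snd ε)

lemma Ex_gw (hS : S.Reg) (ε : X → ℝ) {l : ℕ} (hl : l ≤ S.K) :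
    S.Ex (gw S ε l) = S.Ex (fun z _ => tt S ε l z ^ 2) := by
  have h := hS.Ex_mul_T hl (dep_tt S ε l) (eg_tt hS ε hl) (Nh.snd ε)
  rw [gw_eq, ← h]
  congr 1
  funext z _
  rw [sq]
  rfl

lemma Ex_tt_mul (hS : S.Reg) (ε : X → ℝ) {l k : ℕ} (hlk : l ≤ k) (hk : k ≤ S.K) :
    S.Ex (fun z _ => tt S ε l z * tt S ε k z) = S.Ex (fun z _ => tt S ε l z ^ 2) := by
  have hl := hlk.trans hk
  have h1 := hS.Ex_mul_T hk ((dep_tt S ε l).mono hlk) (eg_tt hS ε hl) (Nh.snd ε)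
  rw [← Ex_gw hS ε hl, gw_eq]
  exact h1

lemma abs_tt_le (hS : S.Reg) {ε : X → ℝ} (hε : ∀ x, |ε x| ≤ 1) {l : ℕ} (hl : l ≤ S.K)
    (z : ι → ℝ) : |tt S ε l z| ≤ 1 := by
  have e : tt S ε l z = ∑ x, S.pr l z x * ε x := hS.T_pr hl ε z
  rw [e]
  refine (Finset.abs_sum_le_sum_abs _ _).trans ?_
  rw [← hS.sum_pr hl z]
  refine Finset.sum_le_sum fun x _ => ?_
  rw [abs_mul, abs_of_nonneg (hS.pr_nonneg hl z x)]
  exact mul_le_of_le_one_right (hS.pr_nonneg hl z x) (hε x)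

end W206

open W206

theorem gw_nonneg (F : Fld S D φ zc s) {ε : X → ℝ} (hε : ∀ x, |ε x| ≤ 1) {l : ℕ}
    (hl : l ≤ S.K) : 0 ≤ S.Ex (gw S ε l) ∧ S.Ex (gw S ε l) ≤ 1 := by
  have hS := F.hreg
  have ht := (eg_tt hS ε hl).pow 2
  rw [Ex_gw hS ε hl]
  constructor
  · rw [← hS.Ex_const 0]
    exact hS.Ex_mono (Nh.fst (EG.const 0)) (Nh.fst ht) fun z _ => sq_nonneg _
  · rw [← hS.Ex_const 1]
    refine hS.Ex_mono (Nh.fst ht) (Nh.fst (EG.const 1)) fun z _ => ?_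
    have h := abs_tt_le hS hε hl z
    nlinarith [abs_le.mp h, sq_abs (tt S ε l z), abs_nonneg (tt S ε l z)]

theorem gw_diff (F : Fld S D φ zc s) {ε : X → ℝ} (hε : ∀ x, |ε x| ≤ 1) {l : ℕ} (hl : l < S.K) :
    S.Ex (fun z x => (gw S ε l z x - gw S ε (l + 1) z x) ^ 2) ≤
      S.Ex (gw S ε (l + 1)) - S.Ex (gw S ε l) := by
  have hS := F.hreg
  have e0 := eg_tt hS ε (l := l) hl.le
  have e1 := eg_tt hS ε (l := l + 1) hl
  have n0 := W206.nh_gw hS ε (l := l) hl.le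
  have n1 := W206.nh_gw hS ε (l := l + 1) hl
  have h1 : S.Ex (fun z x => (gw S ε l z x - gw S ε (l + 1) z x) ^ 2) ≤
      S.Ex (fun z _ => (tt S ε (l + 1) z - tt S ε l z) ^ 2) := by
    refine hS.Ex_mono (Nh.pow (Nh.sub n0 n1) 2) (Nh.fst ((e1.sub e0).pow 2)) fun z x => ?_
    have h2 : (gw S ε l z x - gw S ε (l + 1) z x) ^ 2 =
        (tt S ε (l + 1) z - tt S ε l z) ^ 2 * ε x ^ 2 := by
      rw [gw_eq, gw_eq]; ring
    rw [h2]
    have h3 : ε x ^ 2 ≤ 1 := by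
      nlinarith [hε x, sq_abs (ε x), abs_nonneg (ε x)]
    exact mul_le_of_le_one_right (sq_nonneg _) h3
  refine h1.trans (le_of_eq ?_)
  rw [Ex_gw hS ε hl.le, Ex_gw hS ε (l := l + 1) hl]
  have h4 : (fun (z : ι → ℝ) (_ : X) => (tt S ε (l + 1) z - tt S ε l z) ^ 2) =
      fun z x => ((fun (z : ι → ℝ) (_ : X) => tt S ε (l + 1) z ^ 2) z x -
        (fun (z : ι → ℝ) (_ : X) => 2 * (tt S ε l z * tt S ε (l + 1) z)) z x) +
        (fun (z : ι → ℝ) (_ : X) => tt S ε l z ^ 2) z x := by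
    funext z _
    ring
  rw [h4, hS.Ex_add (Nh.sub (Nh.fst (e1.pow 2))
    (Nh.fst (EG.const_mul 2 (e0.mul e1)))) (Nh.fst (e0.pow 2)),
    hS.Ex_sub (Nh.fst (e1.pow 2)) (Nh.fst (EG.const_mul 2 (e0.mul e1))),
    Sy.Ex_const_mul, Ex_tt_mul hS ε (Nat.le_succ l) hl]
  ring

theorem gw_pair (F : Fld S D φ zc s) (ε : X → ℝ) {l : ℕ} (hl : l ≤ S.K) :
    S.pairEx l (fun x x' => ε x * ε x') = S.Ex (gw S ε l) := by
  have hS := F.hreg
  rw [Ex_gw hS ε hl, Sy.pairEx]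
  congr 1
  funext z _
  have e : tt S ε l z = ∑ x, S.pr l z x * ε x := hS.T_pr hl ε z
  rw [e, sq, Finset.sum_mul_sum]
  refine Finset.sum_congr rfl fun x _ => Finset.sum_congr rfl fun x' _ => ?_
  ring

end gen

end Vale.Agent.P146.Ub.Ld
end

section

/-!
# P146, Rt: one level, one test function
-/

open MeasureTheory ProbabilityTheory Filter Topology

namespace Vale.Agent.P146.Ub.Ld

set_option linter.unusedSectionVars false

open Vale.Agent.P157 Vale.Agent.P157.Lv Vale.Agent.P157.Lv.Sy Vale.Agent.P157.Lv.Fld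

variable {ι X : Type} [Fintype ι] [DecidableEq ι] [Fintype X] [DecidableEq X] [Nonempty X] {N : ℕ}
  {S : Sy ι X} {D : ι → (ι → ℝ) → X → ℝ} {φ : X → Fin N → ℝ} {zc : ℕ → Fin N → ι} {s : ℕ → ℝ}

theorem gJ (F : Fld S D φ zc s) {d : ℕ} {σ π : ℝ} (hσ : 0 < σ) (hπ : 0 < π)
    (hs : ∀ l, d ≤ l → l ≤ S.K → σ ≤ s l) (hp : ∀ l ≤ S.K, π ≤ S.p l) {e : ℕ → ℝ}
    (he : ∀ l, 0 ≤ e l)
    (hc : ∀ l, d ≤ l → l ≤ S.K → ∃ c, S.Ex (fun z x => |hz φ zc l z x - c|) ≤ e l)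
    {ε : X → ℝ} (hε : ∀ x, |ε x| ≤ 1) {l : ℕ} (hd : d ≤ l) (hl : l < S.K) (q : ℝ) :
    |S.pairEx l (fun x x' => ε x * ε x' * (Rov φ x x' - q))| ≤
      √(gQ S φ l - gW S φ l) + √(S.Ex (gw S ε (l + 1)) - S.Ex (gw S ε l)) * √(gV S φ l) +
        2 * (e l + e (l + 1)) / (σ * π) + |S.Rl φ l - q| := by
  have hS := F.hreg
  have hlK := hl.le
  have hl1 : l + 1 ≤ S.K := hl
  have nu := nh_uu (φ := φ) hS hlK
  have ng0 : Nh (gw S ε l) := Nh.mul (Nh.fst (hS.eg_T hlK (Nh.snd ε))) (Nh.snd ε)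
  have ng1 : Nh (gw S ε (l + 1)) := Nh.mul (Nh.fst (hS.eg_T hl1 (Nh.snd ε))) (Nh.snd ε)
  have nc : ∀ c : ℝ, Nh (ι := ι) (X := X) (fun _ _ => c) := fun c => Nh.fst (EG.const c)
  set R : ℝ := S.Rl φ l with hR
  set A : ℝ := S.Ex (gw S ε l) with hA
  set B : ℝ := S.Ex (gw S ε (l + 1)) with hB
  set P : ℝ := S.pairEx l (fun x x' => ε x * ε x' * Rov φ x x') with hP
  set U : ℝ := S.Ex (fun z x => gw S ε l z x * uu S φ l z x) with hU
  set U' : ℝ := S.Ex (fun z x => gw S ε (l + 1) z x * uu S φ l z x) with hU'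
  -- the pair average
  have e1 : S.pairEx l (fun x x' => ε x * ε x' * (Rov φ x x' - q)) = P - q * A := by
    have e2 : (fun x x' => ε x * ε x' * (Rov φ x x' - q)) =
        fun x x' => ε x * ε x' * Rov φ x x' + (-q) * (ε x * ε x') := by
      funext x x'
      ring
    rw [e2, hS.pairEx_add hlK, hS.pairEx_const_mul, gw_pair F ε hlK]
    simp only [hP, hA]
    ring
  have h1 : |P - U| ≤ √(gQ S φ l - gW S φ l) := gw_pairR F hε hlK
  -- the covariance with the next level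
  have h2 : |U' - B * R| ≤ 2 * (e l + e (l + 1)) / (σ * π) := by
    have h := gw_field F hσ hs he hc hε hd (Nat.lt_succ_self l) hl1
    have h3 : π * |U' - B * R| ≤ 2 * (e l + e (l + 1)) / σ :=
      (mul_le_mul_of_nonneg_right (hp l hlK) (abs_nonneg _)).trans h
    rw [← div_div, le_div_iff₀ hπ, mul_comm]
    exact h3
  -- Cauchy-Schwarz
  have nd : Nh (fun z x => gw S ε l z x - gw S ε (l + 1) z x) := Nh.sub ng0 ng1
  have nv : Nh (fun z x => uu S φ l z x - R) := Nh.sub nu (nc R)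
  have e3 : (U - R * A) - (U' - B * R) =
      S.Ex (fun z x => (gw S ε l z x - gw S ε (l + 1) z x) * (uu S φ l z x - R)) := by
    have e4 : (fun z x => (gw S ε l z x - gw S ε (l + 1) z x) * (uu S φ l z x - R)) =
        fun z x => (gw S ε l z x * uu S φ l z x - gw S ε (l + 1) z x * uu S φ l z x) -
          (R * gw S ε l z x - R * gw S ε (l + 1) z x) := by
      funext z x
      ring
    rw [e4, hS.Ex_sub (Nh.sub (Nh.mul ng0 nu) (Nh.mul ng1 nu))
      (Nh.sub (Nh.const_mul _ ng0) (Nh.const_mul _ ng1)), hS.Ex_sub (Nh.mul ng0 nu) (Nh.mul ng1 nu),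
      hS.Ex_sub (Nh.const_mul _ ng0) (Nh.const_mul _ ng1), Sy.Ex_const_mul, Sy.Ex_const_mul]
    simp only [hU, hU', hA, hB]
    ring
  have h3 : |(U - R * A) - (U' - B * R)| ≤ √(B - A) * √(gV S φ l) := by
    rw [e3]
    have hV0 : 0 ≤ gV S φ l := by
      rw [gV, ← hS.Ex_const 0]
      exact hS.Ex_mono (nc 0) (Nh.pow nv 2) fun z x => sq_nonneg _
    have h4 := hS.Ex_cs nd nv
    have h5 := gw_diff F hε hl
    rw [← Real.sqrt_mul' _ hV0]
    refine Real.abs_le_sqrt (h4.trans ?_)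
    exact mul_le_mul_of_nonneg_right h5 hV0
  -- the deterministic part
  have h6 := gw_nonneg F hε hlK
  have h7 : |(R - q) * A| ≤ |R - q| := by
    rw [abs_mul, abs_of_nonneg h6.1]
    exact mul_le_of_le_one_right (abs_nonneg _) h6.2
  rw [e1]
  have e5 : P - q * A = (P - U) + ((U - R * A) - (U' - B * R)) + (U' - B * R) + (R - q) * A := by
    ring
  rw [e5]
  refine (abs_add_le _ _).trans (add_le_add ((abs_add_le _ _).trans (add_le_add
    ((abs_add_le _ _).trans (add_le_add h1 h3)) h2)) h7)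

end Vale.Agent.P146.Ub.Ld
end

section

/-!
# P146, Rt: the overlaps at all the levels, one test function
-/

open MeasureTheory ProbabilityTheory Filter Topology

namespace Vale.Agent.P146.Ub.Ld

set_option linter.unusedSectionVars false

open Vale.Agent.P157 Vale.Agent.P157.Lv Vale.Agent.P157.Lv.Sy Vale.Agent.P157.Lv.Fld
open Vale.Agent.P157.Par (Path Exponents incr spinPart)
open Vale.Agent.P146 (Pair freeEnergy disorder)

variable {n K N d : ℕ} {m s R : ℕ → ℝ} {β θ : ℝ}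

theorem gdev (hd1 : 1 ≤ d) (hd : d ≤ K) (hN : N ≤ n) (h0 : 0 < N) {c : ℝ}
    {a : (Fin n → Bool) → RI n K → ℝ} {D : RI n K → (RI n K → ℝ) → (Fin n → Bool) → ℝ}
    (F : Fld (ls (rlv d) K (me K) c a) D (ph hN) (zc hN) s) {σ : ℝ} (hσ : 0 < σ)
    (hs : ∀ l, d ≤ l → l ≤ K → σ ≤ s l) {e : ℕ → ℝ} (he : ∀ l, 0 ≤ e l) (heK : e (K + 1) = 0)
    (hc : ∀ j, d ≤ j → j ≤ K → (ls (rlv d) K (me K) c a).Ex (fun z x =>
      |hz (ph hN) (zc hN) j z x - (SN n K d (me K) β N s).Ex (hz (ph hN) (zc hN) j)|) ≤ e j)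
    {ε : (Fin n → Bool) → ℝ} (hε : ∀ x, |ε x| ≤ 1) :
    ∑ l ∈ Finset.Ico d (K + 1), (me K (l + 1) - me K l) *
      |(ls (rlv d) K (me K) c a).pairEx l (fun x x' => ε x * ε x' *
        (Rov (ph hN) x x' - stR (SN n K d (me K) β N s) (ph hN) l))| ≤
      (√(1 + Real.log ((K : ℝ) + 1)) *
        (2 + 16 * ((K : ℝ) + 1) * (∑ l ∈ Finset.Ico d (K + 1), e l) / σ) + 2) / ((K : ℝ) + 1) := by
  set S := ls (rlv d) K (me K) c a with hSdef
  have hm := me_exp K
  have hS := F.hreg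
  have hSK : S.K = K := rfl
  have hs0 : ∀ l ≤ K, 0 ≤ s l := fun l hl => F.pos l hl
  have F0 := SN_fld (β := β) hd hN h0 hm hs0
  have hL0 : (0 : ℝ) < (K : ℝ) + 1 := by positivity
  set π : ℝ := 1 / ((K : ℝ) + 1) with hπ
  have hπ0 : 0 < π := by positivity
  have hmp : ∀ l, me K (l + 1) - me K l = π := fun l => by
    rw [rs_me_p, hπ]; push_cast; rfl
  have hp : ∀ l, S.p l = π := fun l => hmp l
  have hc' : ∀ l, d ≤ l → l ≤ S.K → ∃ c', S.Ex (fun z x => |hz (ph hN) (zc hN) l z x - c'|) ≤ e l :=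
    fun l h1 h2 => ⟨_, hc l h1 h2⟩
  -- the levels below `K`
  have hlev : ∀ l, d ≤ l → l < K → (me K (l + 1) - me K l) *
      |S.pairEx l (fun x x' => ε x * ε x' *
        (Rov (ph hN) x x' - stR (SN n K d (me K) β N s) (ph hN) l))| ≤
      1 / ((K : ℝ) + 1) * (√(gQ S (ph hN) l - gW S (ph hN) l) +
        √(S.Ex (gw S ε (l + 1)) - S.Ex (gw S ε l)) * √(gV S (ph hN) l) +
        3 * (e l + e (l + 1)) * ((K : ℝ) + 1) / σ) := by
    intro l h1 h2
    rw [hmp]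
    have c4 : stR (SN n K d (me K) β N s) (ph hN) l =
        (SN n K d (me K) β N s).Rl (ph hN) l := by
      unfold stR
      rw [if_pos]
      exact h2
    rw [c4]
    have a1 := gJ F hσ hπ0 hs (fun l _ => (hp l).ge) he hc' hε h1 h2
      ((SN n K d (me K) β N s).Rl (ph hN) l)
    have a2 := gpath F F0 rfl rfl hσ hs he hc h1 h2.le
    rw [hp] at a2
    have a3 : π * (2 * (e l + e (l + 1)) / (σ * π)) = 2 * (e l + e (l + 1)) / σ := by
      field_simp
    have a4 : 1 / ((K : ℝ) + 1) * (3 * (e l + e (l + 1)) * ((K : ℝ) + 1) / σ) =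
        3 * ((e l + e (l + 1)) / σ) := by
      field_simp
    have a5 := mul_le_mul_of_nonneg_left a1 hπ0.le
    refine a5.trans ?_
    have a6 : 2 * (e l + e (l + 1)) / σ = 2 * ((e l + e (l + 1)) / σ) := by ring
    rw [a6] at a3
    rw [mul_add, mul_add, a3, mul_add (1 / ((K : ℝ) + 1)) _ (3 * (e l + e (l + 1)) * ((K : ℝ) + 1) / σ),
      a4, ← hπ]
    linarith
  -- the level `K`
  have hK : (me K (K + 1) - me K K) *
      |S.pairEx K (fun x x' => ε x * ε x' *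
        (Rov (ph hN) x x' - stR (SN n K d (me K) β N s) (ph hN) K))| ≤ 2 / ((K : ℝ) + 1) := by
    rw [hmp]
    have b1 : |S.pairEx K (fun x x' => ε x * ε x' *
        (Rov (ph hN) x x' - stR (SN n K d (me K) β N s) (ph hN) K))| ≤ 2 := by
      have b2 : ∀ x x', |ε x * ε x' *
          (Rov (ph hN) x x' - stR (SN n K d (me K) β N s) (ph hN) K)| ≤ 2 := by
        intro x x'
        have c5 : stR (SN n K d (me K) β N s) (ph hN) K = 1 := stR_last _ _
        rw [c5, abs_mul, abs_mul]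
        have b3 : |ε x| * |ε x'| ≤ 1 := mul_le_one₀ (hε x) (abs_nonneg _) (hε x')
        have b4 : |Rov (ph hN) x x' - 1| ≤ 2 := by
          have b5 := abs_le.1 (F.abs_Rov_le x x')
          rw [abs_le]
          constructor <;> linarith
        have b6 : 0 ≤ |ε x| * |ε x'| := by positivity
        nlinarith [abs_nonneg (Rov (ph hN) x x' - 1)]
      have b8 := hS.pairEx_const (l := K) (show K ≤ S.K from le_rfl) 2
      have b9 := hS.pairEx_const (l := K) (show K ≤ S.K from le_rfl) (-2)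
      rw [abs_le]
      constructor
      · rw [← b9]
        exact hS.pairEx_mono (show K ≤ S.K from le_rfl) fun x x' => (abs_le.1 (b2 x x')).1
      · rw [← b8]
        exact hS.pairEx_mono (show K ≤ S.K from le_rfl) fun x x' => (abs_le.1 (b2 x x')).2
    have b7 := mul_le_mul_of_nonneg_left b1 hπ0.le
    refine b7.trans (le_of_eq ?_)
    rw [hπ]; ring
  rw [Finset.sum_Ico_succ_top hd]
  have hsum := gsum hd hσ (V := gV S (ph hN)) (D := fun l => gQ S (ph hN) l - gW S (ph hN) l)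
    (ω := fun l => S.Ex (gw S ε l)) (R := S.Rl (ph hN)) he heK
    (fun l _ h2 => gV_nonneg F h2.le)
    (fun l h1 h2 => by
      have h3 := gsync_V F hσ hπ0 hs (fun l _ => (hp l).ge) he hc' h1 h2
      have h4 : 4 * (e (l + 1) + e (l + 2)) / (σ * π) =
          4 * (e (l + 1) + e (l + 2)) * ((K : ℝ) + 1) / σ := by
        rw [hπ]; field_simp
      rwa [h4] at h3)
    (fun l _ h2 => gQW_nonneg F h2.le)
    (fun l h1 h2 => by
      have h3 := gsync_Q F hσ hs he hc' h1 h2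
      have h4 : S.m (l + 1) = ((l : ℝ) + 1) / ((K : ℝ) + 1) := by
        show me K (l + 1) = _
        unfold me
        push_cast
        rfl
      rw [h4, hp] at h3
      exact h3)
    (F.Rl_nonneg hd) (F.Rl_le_one le_rfl) (gw_nonneg F hε hd).1 (gw_nonneg F hε le_rfl).2
    (fun l _ h2 => by
      have h3 := gw_diff F hε h2
      have n1 : ∀ k, k ≤ S.K → Nh (gw S ε k) := fun k hk =>
        Nh.mul (Nh.fst (hS.eg_T hk (Nh.snd ε))) (Nh.snd ε)
      have h4 : 0 ≤ S.Ex (fun z x => (gw S ε l z x - gw S ε (l + 1) z x) ^ 2) := by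
        have h5 := hS.Ex_mono (f := fun _ _ => (0 : ℝ))
          (g := fun z x => (gw S ε l z x - gw S ε (l + 1) z x) ^ 2)
          (fun _ => EG.const 0) (Nh.pow (Nh.sub (n1 l h2.le) (n1 (l + 1) h2)) 2)
          (fun z x => sq_nonneg _)
        rwa [hS.Ex_const] at h5
      show S.Ex (gw S ε l) ≤ S.Ex (gw S ε (l + 1))
      linarith)
  have hfin : ∑ l ∈ Finset.Ico d K, (me K (l + 1) - me K l) *
      |S.pairEx l (fun x x' => ε x * ε x' *
        (Rov (ph hN) x x' - stR (SN n K d (me K) β N s) (ph hN) l))| ≤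
      √(1 + Real.log ((K : ℝ) + 1)) *
        (2 + 16 * ((K : ℝ) + 1) * (∑ l ∈ Finset.Ico d (K + 1), e l) / σ) / ((K : ℝ) + 1) := by
    refine le_trans (Finset.sum_le_sum fun l hl => ?_) hsum
    rw [Finset.mem_Ico] at hl
    exact hlev l hl.1 hl.2
  rw [add_div]
  exact add_le_add hfin hK

end Vale.Agent.P146.Ub.Ld
end

section

/-!
# P146, Rt: the step, with the linear error of the overlaps
-/

open MeasureTheory ProbabilityTheory Filter Topology

namespace Vale.Agent.P146.Ub.Ld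

set_option linter.unusedSectionVars false

open Vale.Agent.P157 Vale.Agent.P157.Lv Vale.Agent.P157.Lv.Sy
open Vale.Agent.P157.Par (Path Exponents incr spinPart)
open Vale.Agent.P146 (Pair)
open Vale.Agent.P146.Sk (PSK)

variable {n K N d : ℕ} {m s R : ℕ → ℝ} {β θ : ℝ}

/-- Jensen for the overlap of two replicas -/
theorem gs_jensen (hd : d ≤ K) (hN : N ≤ n) (h0 : 0 < N) (hm : Exponents K m)
    (hs : ∀ l ≤ K, 0 ≤ s l) {l : ℕ} (hl : l ≤ K) :
    (SN n K d m β N s).Rl (ph hN) l ^ 2 ≤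
      (SN n K d m β N s).pairEx l (fun x x' => Rov (ph hN) x x' ^ 2) := by
  have F := SN_fld (β := β) hd hN h0 hm hs
  have hReg : (SN n K d m β N s).Reg := rs_reg hd hm _ _
  have hl' : l ≤ (SN n K d m β N s).K := hl
  obtain ⟨c, hc⟩ : ∃ c, c = (SN n K d m β N s).Rl (ph hN) l := ⟨_, rfl⟩
  rw [← hc]
  have h1 : 0 ≤ (SN n K d m β N s).pairEx l (fun x x' => (Rov (ph hN) x x' - c) ^ 2) :=
    hReg.pairEx_nonneg hl' fun x x' => sq_nonneg _
  have e1 : (fun x x' => (Rov (ph hN) x x' - c) ^ 2) =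
      fun x x' => Rov (ph hN) x x' ^ 2 + ((-(2 * c)) * Rov (ph hN) x x' + c * c) := by
    funext x x'
    ring
  rw [e1, hReg.pairEx_add hl' (fun x x' => Rov (ph hN) x x' ^ 2)
    (fun x x' => (-(2 * c)) * Rov (ph hN) x x' + c * c),
    hReg.pairEx_add hl' (fun x x' => (-(2 * c)) * Rov (ph hN) x x') (fun _ _ => c * c),
    hReg.pairEx_const_mul, hReg.pairEx_const hl'] at h1
  have e2 : (SN n K d m β N s).pairEx l (fun x x' => Rov (ph hN) x x') = c := by
    rw [hc]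
    exact (F.Rl_eq_pairEx hl').symm
  rw [e2] at h1
  linarith [sq c]

/-- (H) **The step.** -/
theorem gstep (hd1 : 1 ≤ d) (hd : d ≤ K) (hN : N + 1 ≤ n) (h0 : 0 < N) (hβ : 0 ≤ β)
    {σ : ℝ} (hσ : 0 < σ) (hs : ∀ l, d ≤ l → l ≤ K → σ ≤ s l) (hs0 : ∀ l, l < d → s l = 0)
    {t : ℝ} (ht : 0 < t) :
    PSK β K (me K) (ct d (stR (SN n K d (me K) β N s) (ph (Nat.le_of_succ_le hN)))) ≤
      AN n K d (me K) β (N + 1) s - AN n K d (me K) β N s + β ^ 2 / (N + 1 : ℕ) +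
        β ^ 2 * gT K σ (ges n K d (me K) β N s t) := by
  have hsp : ∀ l ≤ K, 0 ≤ s l := fun l hl => by
    rcases lt_or_ge l d with h | h
    · rw [hs0 l h]
    · exact hσ.le.trans (hs l h hl)
  have hN' : N ≤ n := Nat.le_of_succ_le hN
  have hNn : N < n := hN
  have hm := me_exp K
  have hb2 : 0 ≤ β ^ 2 := sq_nonneg β
  have hN1 : (0 : ℝ) < ((N + 1 : ℕ) : ℝ) := by positivity
  have hK1 : (0 : ℝ) < (K : ℝ) + 1 := by positivity
  have F0 := SN_fld (β := β) hd hN' h0 hm hsp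
  obtain ⟨R₀, hRdef⟩ : ∃ R, R = stR (SN n K d (me K) β N s) (ph hN') := ⟨_, rfl⟩
  obtain ⟨R, hRc⟩ : ∃ R, R = ct d R₀ := ⟨_, rfl⟩
  obtain ⟨W, hW⟩ : ∃ W, W = (√(1 + Real.log ((K : ℝ) + 1)) *
        (2 + 16 * ((K : ℝ) + 1) * (ges n K d (me K) β N s t) / σ) + 2) / ((K : ℝ) + 1) :=
    ⟨_, rfl⟩
  have hR₀ : Path K R₀ := by rw [hRdef]; exact st_path F0
  have hRK₀ : R₀ K = 1 := by rw [hRdef]; exact stR_last (SN n K d (me K) β N s) (ph hN')
  have hR : Path K R := by rw [hRc]; exact ct_path hR₀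
  have hRK : R K = 1 := by rw [hRc, ct_ge hd, hRK₀]
  have hRlt : ∀ l, l < d → R l = 0 := fun l hl => by rw [hRc, ct_lt hl]
  have hRge : ∀ l, d ≤ l → R l = R₀ l := fun l hl => by rw [hRc, ct_ge hl]
  have hR1 : R K ≤ 1 := hRK.le
  have hRm : ∀ l ≤ K, 0 ≤ R l ∧ R l ≤ 1 := by
    have mono : ∀ i j, i ≤ j → j ≤ K → R i ≤ R j := by
      intro i j hij
      induction j, hij using Nat.le_induction with
      | base => intro _; exact le_rfl
      | succ j _ ih => intro hj; exact (ih (by omega)).trans (hR.2 j (by omega))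
    intro l hl
    exact ⟨hR.1.trans (mono 0 l (Nat.zero_le _) hl), (mono l K hl le_rfl).trans hR1⟩
  have hspN : ∀ x : Fin n → Bool, |sp N x| ≤ 1 := by
    intro x
    have h1 := sp_sq hNn x
    rw [← sq_abs] at h1
    exact ((pow_eq_one_iff_of_nonneg (abs_nonneg _) two_ne_zero).1 h1).le
  have hdev : ∀ θ, ∑ l ∈ Finset.Ico d (K + 1), (me K (l + 1) - me K l) *
      |(ST n K d (me K) β N s R θ).pairEx l (fun x x' => sp N x * sp N x' *
        (Rov (ph hN') x x' - R₀ l))| ≤ W := by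
    intro θ
    have h1 := gdev (β := β) (s := s) hd1 hd hN' h0
      (ST_fld (β := β) (R := R) (θ := θ) hd hN' h0 hm hsp) hσ hs
      (e := ger n K d (me K) β N s t)
      (fun l => ger_nonneg hd hN' hm s ht l)
      (by unfold ger; rw [if_neg (by omega)])
      (fun j hj1 hj2 => ST_conc0 hd1 hd hN h0 hm hR hR1 (hRlt 0 (by omega)) hsp
        (hs0 0 (by omega)) ht θ (by omega) hj2) (ε := sp N) hspN
    rw [hW, hRdef]
    exact h1
  rw [← hRdef, ← hRc]
  obtain ⟨γ, hγ⟩ : ∃ γ, γ = β / √((N + 1 : ℕ) : ℝ) := ⟨_, rfl⟩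
  have hγ2 : γ ^ 2 = β ^ 2 / ((N + 1 : ℕ) : ℝ) := by
    rw [hγ, div_pow, Real.sq_sqrt hN1.le]
  have hγN : β ^ 2 - γ ^ 2 * N = β ^ 2 / ((N + 1 : ℕ) : ℝ) := by
    rw [hγ2]
    field_simp
    push_cast
    ring
  have hsum := rs_sum_p hm
  -- (1)
  have h1 := AN_succ_ge hd hN hm β s
  -- (2)
  have h2 := ls_interp (X := Fin n → Bool) (a := sc (n := n) (K := K) β N s) (α := tre N β R)
    (β := cav N γ) hm (rlv_le hd) (lc n) (B := 2 * (β ^ 2 / ((N + 1 : ℕ) : ℝ)) + β ^ 2 * W)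
    (dj_tre_cav β γ) (dj_tre_sc β) (dj_cav_sc γ) (by
      intro θ _ _
      have eS : ls (rlv d) K (me K) (lc n) (ith (sc (n := n) (K := K) β N s) (tre N β R) (cav N γ) θ) =
          ST n K d (me K) β N s R θ := by
        rw [hγ]; rfl
      rw [eS]
      have hReg : (ST n K d (me K) β N s R θ).Reg := rs_reg hd hm _ _
      have e1 : (fun (_ : RI n K → ℝ) (x : Fin n → Bool) =>
          ∑ e, (tre (K := K) N β R x e ^ 2 - cav (K := K) N γ x e ^ 2)) =
          fun _ _ => β ^ 2 / ((N + 1 : ℕ) : ℝ) := by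
        funext _ x
        rw [Finset.sum_sub_distrib, sum_tre hNn β hR, sum_cav hNn, hRK, mul_one, hγN]
      rw [e1, hReg.Ex_const]
      have e2 : ∀ l ∈ Finset.range (K + 1),
          -(β ^ 2 * (if d ≤ l then (me K (l + 1) - me K l) *
            |(ST n K d (me K) β N s R θ).pairEx l (fun x x' => sp N x * sp N x' *
              (Rov (ph hN') x x' - R₀ l))| else 0) +
            β ^ 2 / ((N + 1 : ℕ) : ℝ) * (me K (l + 1) - me K l)) ≤ (me K (l + 1) - me K l) *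
          (ST n K d (me K) β N s R θ).pairEx l (fun x x' =>
            cv (rlv d) l (tre (K := K) N β R) (tre N β R) x x' -
              cv (rlv d) l (cav (K := K) N γ) (cav N γ) x x') := by
        intro l hl
        have hl' : l ≤ K := by have := Finset.mem_range.1 hl; omega
        have hl'' : l ≤ (ST n K d (me K) β N s R θ).K := hl'
        have hp := rs_p_nonneg hm hl
        have e6 : 0 ≤ β ^ 2 / ((N + 1 : ℕ) : ℝ) := div_nonneg hb2 hN1.le
        rcases lt_or_ge l d with hld | hld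
        · have e3 : (fun x x' => cv (rlv d) l (tre (n := n) (K := K) N β R) (tre N β R) x x' -
              cv (rlv d) l (cav (n := n) (K := K) N γ) (cav N γ) x x') = fun _ _ => 0 := by
            funext x x'
            rw [cv_tre' hNn hl' β hR, cv_cav_lt hld, hRlt l hld, mul_zero, sub_zero]
          rw [e3, hReg.pairEx_const hl'', if_neg (not_le.2 hld)]
          have e7 := mul_nonneg e6 hp
          linarith
        rw [if_pos hld, ← hRge l hld]
        obtain ⟨J, hJ⟩ : ∃ J, J = (ST n K d (me K) β N s R θ).pairEx l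
          (fun x x' => sp N x * sp N x' * (Rov (ph hN') x x' - R l)) := ⟨_, rfl⟩
        obtain ⟨J', hJ'⟩ : ∃ J', J' = (ST n K d (me K) β N s R θ).pairEx l
          (fun x x' => sp N x * sp N x' * Rov (ph hN') x x') := ⟨_, rfl⟩
        have e3 : (ST n K d (me K) β N s R θ).pairEx l (fun x x' =>
            cv (rlv d) l (tre (K := K) N β R) (tre N β R) x x' -
              cv (rlv d) l (cav (K := K) N γ) (cav N γ) x x') =
            (-β ^ 2) * J + β ^ 2 / ((N + 1 : ℕ) : ℝ) * J' := by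
          have e4 : (fun x x' => cv (rlv d) l (tre (n := n) (K := K) N β R) (tre N β R) x x' -
              cv (rlv d) l (cav (n := n) (K := K) N γ) (cav N γ) x x') =
              fun x x' => (-β ^ 2) * (sp N x * sp N x' * (Rov (ph hN') x x' - R l)) +
                β ^ 2 / ((N + 1 : ℕ) : ℝ) * (sp N x * sp N x' * Rov (ph hN') x x') := by
            funext x x'
            rw [cv_tre' hNn hl' β hR, cv_cav_ge hNn hld, ← hγN]
            ring
          rw [e4, hReg.pairEx_add hl''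
            (fun x x' => (-β ^ 2) * (sp N x * sp N x' * (Rov (ph hN') x x' - R l)))
            (fun x x' => β ^ 2 / ((N + 1 : ℕ) : ℝ) * (sp N x * sp N x' * Rov (ph hN') x x')),
            hReg.pairEx_const_mul, hReg.pairEx_const_mul, hJ, hJ']
        have hJ1 : -1 ≤ J' := by
          rw [hJ', ← hReg.pairEx_const hl'' (-1)]
          refine hReg.pairEx_mono hl'' fun x x' => ?_
          have a1 := hspN x
          have a2 := hspN x'
          have a3 := rs_abs_Rov hN' h0 x x'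
          have a4 : |sp N x * sp N x' * Rov (ph hN') x x'| ≤ 1 := by
            rw [abs_mul, abs_mul]
            exact mul_le_one₀ (mul_le_one₀ a1 (abs_nonneg _) a2) (abs_nonneg _) a3
          exact (abs_le.1 a4).1
        rw [e3, ← hJ]
        have e8 : -|J| ≤ -J := neg_le_neg (le_abs_self J)
        have e9 : β ^ 2 * (-|J|) + β ^ 2 / ((N + 1 : ℕ) : ℝ) * (-1) ≤
            (-β ^ 2) * J + β ^ 2 / ((N + 1 : ℕ) : ℝ) * J' := by
          have f1 := mul_le_mul_of_nonneg_left e8 hb2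
          have f2 := mul_le_mul_of_nonneg_left hJ1 e6
          linarith
        have e10 := mul_le_mul_of_nonneg_left e9 hp
        linarith
      have e7 := Finset.sum_le_sum e2
      have e8 : ∑ l ∈ Finset.range (K + 1),
          -(β ^ 2 * (if d ≤ l then (me K (l + 1) - me K l) *
            |(ST n K d (me K) β N s R θ).pairEx l (fun x x' => sp N x * sp N x' *
              (Rov (ph hN') x x' - R₀ l))| else 0) +
            β ^ 2 / ((N + 1 : ℕ) : ℝ) * (me K (l + 1) - me K l)) =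
          -(β ^ 2 * ∑ l ∈ Finset.Ico d (K + 1), (me K (l + 1) - me K l) *
            |(ST n K d (me K) β N s R θ).pairEx l (fun x x' => sp N x * sp N x' *
              (Rov (ph hN') x x' - R₀ l))| +
            β ^ 2 / ((N + 1 : ℕ) : ℝ) * ∑ l ∈ Finset.range (K + 1), (me K (l + 1) - me K l)) := by
        have f1 : (Finset.range (K + 1)).filter (fun l => d ≤ l) = Finset.Ico d (K + 1) := by
          ext l
          simp only [Finset.mem_filter, Finset.mem_range, Finset.mem_Ico]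
          omega
        rw [Finset.sum_neg_distrib, Finset.sum_add_distrib, ← Finset.mul_sum, ← Finset.mul_sum,
          ← f1, Finset.sum_filter]
      rw [e8, hsum, mul_one] at e7
      have e9 := mul_le_mul_of_nonneg_left (hdev θ) hb2
      linarith)
  -- (3)
  have h3 := fe_tre (R := R) hd hNn hm hβ hR s
  -- (4)
  have h4 := SC_ge (β := β) hd hN' h0 hm s
  have h5 : ∑ l ∈ Finset.range (K + 1), (me K (l + 1) - me K l) * R l ^ 2 - 1 / ((K : ℝ) + 1) ≤
      ∑ l ∈ Finset.range (K + 1), (me K (l + 1) - me K l) *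
        (if d ≤ l then (SN n K d (me K) β N s).pairEx l (fun x x' => Rov (ph hN') x x' ^ 2)
          else 0) := by
    have hReg : (SN n K d (me K) β N s).Reg := rs_reg hd hm _ _
    have a1 : ∀ l ∈ Finset.range (K + 1), (me K (l + 1) - me K l) * R l ^ 2 -
        (if l = K then 1 / ((K : ℝ) + 1) else 0) ≤ (me K (l + 1) - me K l) *
        (if d ≤ l then (SN n K d (me K) β N s).pairEx l (fun x x' => Rov (ph hN') x x' ^ 2)
          else 0) := by
      intro l hl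
      have hl' : l ≤ K := by have := Finset.mem_range.1 hl; omega
      have hl'' : l ≤ (SN n K d (me K) β N s).K := hl'
      have hp := rs_p_nonneg hm hl
      have hnn : 0 ≤ (if l = K then 1 / ((K : ℝ) + 1) else 0) := by
        split_ifs
        · positivity
        · exact le_rfl
      rcases lt_or_ge l d with hld | hld
      · rw [if_neg (not_le.2 hld), hRlt l hld]
        linarith
      rw [if_pos hld]
      rcases Nat.lt_or_eq_of_le hl' with hlK | hlK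
      · have a2 : R l = (SN n K d (me K) β N s).Rl (ph hN') l := by
          rw [hRge l hld, hRdef]
          unfold stR
          rw [if_pos]
          exact hlK
        have a3 := gs_jensen (β := β) hd hN' h0 hm hsp hl'
        rw [← a2] at a3
        have a4 := mul_le_mul_of_nonneg_left a3 hp
        linarith
      · have a2 : 0 ≤ (SN n K d (me K) β N s).pairEx l (fun x x' => Rov (ph hN') x x' ^ 2) :=
          hReg.pairEx_nonneg hl'' fun x x' => sq_nonneg _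
        have a3 := mul_nonneg hp a2
        rw [if_pos hlK, hlK, hRK, rs_me_p]
        rw [hlK] at a3
        push_cast at a3 ⊢
        rw [rs_me_p] at a3
        push_cast at a3
        linarith
    refine le_trans (le_of_eq ?_) (Finset.sum_le_sum a1)
    rw [Finset.sum_sub_distrib, Finset.sum_ite_eq' (Finset.range (K + 1)) K,
      if_pos (Finset.mem_range.2 (Nat.lt_succ_self K))]
  have h6 := mul_le_mul_of_nonneg_left h5 (show 0 ≤ β ^ 2 / 4 by positivity)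
  rw [← hγ] at h1
  rw [h3, hRK] at h2
  unfold PSK
  have h7 : β ^ 2 / 4 * (1 - ∑ l ∈ Finset.range (K + 1), (me K (l + 1) - me K l) *
        (if d ≤ l then (SN n K d (me K) β N s).pairEx l (fun x x' => Rov (ph hN') x x' ^ 2)
          else 0)) =
      β ^ 2 / 4 - β ^ 2 / 4 * ∑ l ∈ Finset.range (K + 1), (me K (l + 1) - me K l) *
        (if d ≤ l then (SN n K d (me K) β N s).pairEx l (fun x x' => Rov (ph hN') x x' ^ 2)
          else 0) := by ring
  rw [h7] at h4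
  have h8 : β ^ 2 / 4 * (∑ l ∈ Finset.range (K + 1), (me K (l + 1) - me K l) * R l ^ 2 -
      1 / ((K : ℝ) + 1)) =
      β ^ 2 / 4 * ∑ l ∈ Finset.range (K + 1), (me K (l + 1) - me K l) * R l ^ 2 -
        β ^ 2 / 4 * (1 / ((K : ℝ) + 1)) := by ring
  rw [h8] at h6
  have h9 : β ^ 2 / 4 * (1 + ∑ i ∈ Finset.range (K + 1), (me K (i + 1) - me K i) * R i ^ 2) =
      β ^ 2 / 4 + β ^ 2 / 4 * ∑ i ∈ Finset.range (K + 1), (me K (i + 1) - me K i) * R i ^ 2 := by
    ring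
  rw [h9]
  -- the total error
  have hges : 0 ≤ ges n K d (me K) β N s t :=
    Finset.sum_nonneg fun l _ => ger_nonneg hd hN' hm s ht l
  have h10 : W / 2 + 1 / 4 * (1 / ((K : ℝ) + 1)) ≤ gT K σ (ges n K d (me K) β N s t) := by
    obtain ⟨X, hX⟩ : ∃ X, X = √(1 + Real.log ((K : ℝ) + 1)) *
        (2 + 16 * ((K : ℝ) + 1) * (ges n K d (me K) β N s t) / σ) := ⟨_, rfl⟩
    have hX0 : 0 ≤ X := by
      rw [hX]
      positivity
    rw [hW]
    unfold gT
    rw [← hX]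
    have e : (X + 2) / ((K : ℝ) + 1) / 2 + 1 / 4 * (1 / ((K : ℝ) + 1)) =
        (X / 2 + 5 / 4) / ((K : ℝ) + 1) := by
      ring
    rw [e]
    exact div_le_div_of_nonneg_right (by linarith) hK1.le
  have h11 := mul_le_mul_of_nonneg_left h10 hb2
  linarith

end Vale.Agent.P146.Ub.Ld
end

section

/-!
# P146, Rt: the lower bound for the exponential moments with the better rate
-/

open MeasureTheory ProbabilityTheory Filter Topology

namespace Vale.Agent.P146.Ub.Ld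

open Vale.Agent.P157 Vale.Agent.P157.Lv Vale.Agent.P157.Lv.Sy Vale.Agent.P157.Lv.Fld
open Vale.Agent.P157.Par (Path Exponents incr spinPart)
open Vale.Agent.P146 (Pair freeEnergy disorder)
open Vale.Agent.P146.Sk (PSK)

theorem grate {β : ℝ} (hβ : 0 < β) : ∃ C : ℝ, 0 ≤ C ∧ ∀ (K d : ℕ) (Lb : ℝ),
    1 ≤ d → d ≤ K →
    (∀ q : ℕ → ℝ, Path K q → q K ≤ 1 → (∀ l < d, q l = 0) → Lb ≤ PSK β K (me K) q) →
    ∀ n : ℕ, 1 ≤ n →
      n * (Real.log 2 + Lb) ≤
        1 / me K d * Real.log (∫ g, Real.exp (me K d * freeEnergy n β g) ∂(disorder n)) +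
          C * (1 + Real.log ((K : ℝ) + 1)) *
            (n / ((K : ℝ) + 1) + ((K : ℝ) + 1) ^ 6 * (1 + Real.log n)) :=
  grate_of fun _ _ hd1 hd _ _ _ hN h0 _ hσ hs hs0 _ ht =>
    gstep hd1 hd hN h0 hβ.le hσ hs hs0 ht

end Vale.Agent.P146.Ub.Ld
end

section

/-!
# P146, Rt: the sharp constants with the better rate: everything except the rate itself
-/

open MeasureTheory ProbabilityTheory Filter Topology Set

namespace Vale.Agent.P146.Sh

open Vale.Agent.P157.Par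
open Vale.Agent.P146.Gap
open Vale.Agent.P146.Pw2
open Vale.Agent.P146.Lb
open Vale.Agent.P367.Cl

/-- a point of the grid just below `x` -/
theorem rtsh_pt {z x : ℝ} (hz : 2 ≤ z) (hx : 1 / z ^ 7 ≤ x) (hx2 : x ≤ 1 / 2) :
    ∃ K d : ℕ, 1 ≤ d ∧ d ≤ K ∧ ((K : ℝ) + 1) ≤ z ^ 36 ∧ z ^ 36 / 2 ≤ (K : ℝ) + 1 ∧
      x * (1 - 2 / z) ≤ gm K d ∧ gm K d ≤ x := by
  have hz0 : 0 < z := by linarith
  have hz1 : 1 ≤ z := by linarith
  have hx0 : 0 < x := lt_of_lt_of_le (by positivity) hx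
  obtain ⟨k, hk⟩ : ∃ k : ℕ, k = ⌊z ^ 36⌋₊ := ⟨_, rfl⟩
  have hZ2 : 2 ≤ z ^ 36 := hz.trans (le_self_pow₀ hz1 (by norm_num))
  have hk1 : (k : ℝ) ≤ z ^ 36 := by rw [hk]; exact Nat.floor_le (by positivity)
  have hk2 : z ^ 36 / 2 ≤ k := by
    have := Nat.lt_floor_add_one (z ^ 36)
    rw [← hk] at this
    linarith
  have hk0 : 1 ≤ k := by
    have : (0 : ℝ) < k := by linarith
    exact_mod_cast this
  have hxk0 : z / 2 ≤ x * k := by
    have h1 : 1 / z ^ 7 * (z ^ 36 / 2) ≤ x * k :=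
      mul_le_mul hx hk2 (by positivity) hx0.le
    have h2 : 1 / z ^ 7 * (z ^ 36 / 2) = z ^ 29 / 2 := by field_simp
    have h3 : z ≤ z ^ 29 := le_self_pow₀ hz1 (by norm_num)
    rw [h2] at h1
    linarith
  have hxk : 1 ≤ x * k := by linarith
  obtain ⟨d, hd⟩ : ∃ d : ℕ, d = ⌊x * k⌋₊ := ⟨_, rfl⟩
  have hd1 : (d : ℝ) ≤ x * k := by rw [hd]; exact Nat.floor_le (by positivity)
  have hd0 : 1 ≤ d := by rw [hd]; exact Nat.le_floor (by exact_mod_cast hxk)
  have hd2 : x * k - 1 ≤ d := by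
    have h1 := Nat.lt_floor_add_one (x * k)
    rw [← hd] at h1
    linarith
  have hk0' : (0 : ℝ) < k := by exact_mod_cast hk0
  have hdk : d < k := by
    have : (d : ℝ) < k := by nlinarith
    exact_mod_cast this
  have hK : ((k - 1 : ℕ) : ℝ) + 1 = k := by
    rw [Nat.cast_sub hk0]; simp
  refine ⟨k - 1, d, hd0, by omega, by rw [hK]; exact hk1, by rw [hK]; exact hk2, ?_, ?_⟩
  · unfold gm
    rw [hK, le_div_iff₀ hk0']
    have h1 : 1 ≤ 2 / z * (x * k) := by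
      have h2 : 2 / z * (z / 2) ≤ 2 / z * (x * k) :=
        mul_le_mul_of_nonneg_left hxk0 (by positivity)
      have h3 : 2 / z * (z / 2) = 1 := by field_simp
      linarith
    have h2 : x * (1 - 2 / z) * k = x * k - 2 / z * (x * k) := by ring
    rw [h2]
    linarith
  · unfold gm
    rw [hK, div_le_iff₀ hk0']
    exact hd1

/-- the error of the rate is small -/
theorem rtsh_err {C ε w z x n k : ℝ} (hC : 0 ≤ C) (hε : 0 < ε) (hw1 : 1 ≤ w)
    (hwC : 12 * 1009 ^ 2 * C / ε ≤ w) (hz : z = w ^ 4) (hnz : n = z ^ 252)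
    (hx : 1 / z ^ 7 ≤ x) (hk1 : k ≤ z ^ 36) (hk2 : z ^ 36 / 2 ≤ k) :
    C * (1 + Real.log k) * (n / k + k ^ 6 * (1 + Real.log n)) ≤ ε / 4 * x ^ 5 * n := by
  have hw0 : 0 < w := by linarith
  have hz1 : 1 ≤ z := by rw [hz]; exact one_le_pow₀ hw1
  have hz0 : 0 < z := by linarith
  have hk0 : 0 < k := lt_of_lt_of_le (by positivity) hk2
  have hn1 : 1 ≤ n := by rw [hnz]; exact one_le_pow₀ hz1
  have hn0 : 0 < n := by linarith
  have hlog : 1 + Real.log n ≤ 1009 * w := by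
    have h1 : Real.log n = 1008 * Real.log w := by
      rw [hnz, hz, Real.log_pow, Real.log_pow]
      push_cast
      ring
    have h2 := Real.log_le_sub_one_of_pos hw0
    rw [h1]
    linarith
  have hlog0 : 0 ≤ Real.log n := Real.log_nonneg hn1
  have hlk : Real.log k ≤ Real.log n := by
    refine Real.log_le_log hk0 (hk1.trans ?_)
    rw [hnz]
    exact pow_le_pow_right₀ hz1 (show (36 : ℕ) ≤ 252 by norm_num)
  have h1 : n / k ≤ 2 * z ^ 216 := by
    rw [div_le_iff₀ hk0]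
    have h2 : 2 * z ^ 216 * (z ^ 36 / 2) ≤ 2 * z ^ 216 * k :=
      mul_le_mul_of_nonneg_left hk2 (by positivity)
    have h3 : 2 * z ^ 216 * (z ^ 36 / 2) = n := by
      have e : z ^ 252 = z ^ 216 * z ^ 36 := by rw [← pow_add]
      rw [hnz, e]
      ring
    linarith
  have h2 : k ^ 6 ≤ z ^ 216 := by
    have h3 := pow_le_pow_left₀ hk0.le hk1 6
    have h4 : (z ^ 36) ^ 6 = z ^ 216 := by rw [← pow_mul]
    rw [h4] at h3
    exact h3
  have hl1 : 0 ≤ 1 + Real.log n := add_nonneg zero_le_one hlog0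
  have h3 : n / k + k ^ 6 * (1 + Real.log n) ≤ 3 * z ^ 216 * (1 + Real.log n) := by
    have h4 : k ^ 6 * (1 + Real.log n) ≤ z ^ 216 * (1 + Real.log n) :=
      mul_le_mul_of_nonneg_right h2 hl1
    have h5 : 2 * z ^ 216 ≤ 2 * z ^ 216 * (1 + Real.log n) :=
      le_mul_of_one_le_right (by positivity) (le_add_of_nonneg_right hlog0)
    have e : 3 * z ^ 216 * (1 + Real.log n) =
        2 * z ^ 216 * (1 + Real.log n) + z ^ 216 * (1 + Real.log n) := by ring
    rw [e]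
    exact add_le_add (h1.trans h5) h4
  have h4 : C * (1 + Real.log k) * (n / k + k ^ 6 * (1 + Real.log n)) ≤
      C * (1 + Real.log n) * (3 * z ^ 216 * (1 + Real.log n)) := by
    have h5 : C * (1 + Real.log k) ≤ C * (1 + Real.log n) :=
      mul_le_mul_of_nonneg_left (add_le_add_right hlk 1) hC
    have h6 : 0 ≤ n / k + k ^ 6 * (1 + Real.log n) := by positivity
    exact mul_le_mul h5 h3 h6 (by positivity)
  have h5 : C * (1 + Real.log n) * (3 * z ^ 216 * (1 + Real.log n)) ≤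
      3 * C * z ^ 216 * (1009 * w) ^ 2 := by
    have h6 : (1 + Real.log n) ^ 2 ≤ (1009 * w) ^ 2 := pow_le_pow_left₀ hl1 hlog 2
    have h7 : 0 ≤ 3 * C * z ^ 216 := by positivity
    have h8 := mul_le_mul_of_nonneg_left h6 h7
    have e : C * (1 + Real.log n) * (3 * z ^ 216 * (1 + Real.log n)) =
        3 * C * z ^ 216 * (1 + Real.log n) ^ 2 := by ring
    rw [e]
    exact h8
  have h6 : 3 * C * z ^ 216 * (1009 * w) ^ 2 ≤ ε / 4 * z ^ 217 := by
    rw [div_le_iff₀ hε] at hwC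
    have h7 : 12 * 1009 ^ 2 * C * w ^ 2 ≤ ε * w ^ 4 := by
      have h8 : 12 * 1009 ^ 2 * C * w ^ 2 ≤ w * ε * w ^ 2 :=
        mul_le_mul_of_nonneg_right hwC (by positivity)
      have h9 : w * ε * w ^ 2 ≤ ε * w ^ 4 := by
        have h10 : w ^ 3 ≤ w ^ 4 := pow_le_pow_right₀ hw1 (by norm_num)
        have h11 := mul_le_mul_of_nonneg_left h10 hε.le
        have e : w * ε * w ^ 2 = ε * w ^ 3 := by ring
        rw [e]
        exact h11
      linarith
    have e1 : 3 * C * z ^ 216 * (1009 * w) ^ 2 =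
        z ^ 216 / 4 * (12 * 1009 ^ 2 * C * w ^ 2) := by ring
    have e2 : ε / 4 * z ^ 217 = z ^ 216 / 4 * (ε * w ^ 4) := by
      rw [← hz, pow_succ z 216]; ring
    rw [e1, e2]
    exact mul_le_mul_of_nonneg_left h7 (by positivity)
  have h7 : ε / 4 * z ^ 217 ≤ ε / 4 * x ^ 5 * n := by
    have h8 : (1 / z ^ 7) ^ 5 ≤ x ^ 5 := pow_le_pow_left₀ (by positivity) hx 5
    have h9 : ε / 4 * z ^ 217 = ε / 4 * (1 / z ^ 7) ^ 5 * n := by
      rw [hnz]
      field_simp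
    rw [h9]
    gcongr
  exact h4.trans (h5.trans (h6.trans h7))

/-- **The sharp constant of the exponential moments, uniformly in `x ≥ n ^ (-1/36)`**, from the
rate. -/
theorem rtsh_moment_of {β : ℝ} (hβ : 1 < β) {A : ℝ} (hA : 0 < A)
    (hlim : Tendsto (fun x => (Vx β x - P0 β) / x ^ 5) (𝓝[>] 0) (𝓝 A)) {C : ℝ} (hC : 0 ≤ C)
    (hdn : ∀ K d : ℕ, 1 ≤ d → d ≤ K → ∀ n : ℕ, 1 ≤ n → n * (Real.log 2 + Vx β (gm K d)) ≤
      1 / gm K d * Real.log (∫ g, Real.exp (gm K d * freeEnergy n β g) ∂(disorder n)) +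
        C * (1 + Real.log ((K : ℝ) + 1)) *
          (n / ((K : ℝ) + 1) + ((K : ℝ) + 1) ^ 6 * (1 + Real.log n)))
    {ε : ℝ} (hε : 0 < ε) :
    ∃ x₀ : ℝ, 0 < x₀ ∧ ∃ N : ℕ, ∀ n ≥ N, ∀ x : ℝ, (n : ℝ) ^ (-(1 / 36) : ℝ) ≤ x → x ≤ x₀ →
      |Real.log (∫ g, Real.exp (x * freeEnergy n β g) ∂(disorder n)) - x * (n * Sx.pv β) -
        A * n * x ^ 6| ≤ ε * n * x ^ 6 := by
  have h1 : ∀ᶠ x in 𝓝[>] (0 : ℝ), |(Vx β x - P0 β) / x ^ 5 - A| < ε / 4 := by
    have := hlim.eventually (Metric.ball_mem_nhds A (by positivity : 0 < ε / 4))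
    simpa [Real.dist_eq] using this
  obtain ⟨u, hu, h2⟩ := mem_nhdsGT_iff_exists_Ioo_subset.1 h1
  have hu0 : 0 < u := hu
  have hV : ∀ x, 0 < x → x < u → |Vx β x - P0 β - A * x ^ 5| ≤ ε / 4 * x ^ 5 := by
    intro x hx hxu
    have h3 : |(Vx β x - P0 β) / x ^ 5 - A| < ε / 4 := h2 ⟨hx, hxu⟩
    have hx5 : 0 < x ^ 5 := by positivity
    have e : Vx β x - P0 β - A * x ^ 5 = ((Vx β x - P0 β) / x ^ 5 - A) * x ^ 5 := by
      field_simp
    rw [e, abs_mul, abs_of_pos hx5]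
    exact mul_le_mul_of_nonneg_right h3.le hx5.le
  have ht : Tendsto (fun n : ℕ => (n : ℝ) ^ (1 / 1008 : ℝ)) atTop atTop :=
    (tendsto_rpow_atTop (by norm_num)).comp tendsto_natCast_atTop_atTop
  obtain ⟨M, hM⟩ : ∃ M : ℝ, M = 2 + 40 * A / ε + 12 * 1009 ^ 2 * C / ε := ⟨_, rfl⟩
  have hM1 : 0 ≤ 40 * A / ε := by positivity
  have hM2 : 0 ≤ 12 * 1009 ^ 2 * C / ε := by positivity
  obtain ⟨N, hN⟩ := eventually_atTop.1 ((ht.eventually_ge_atTop M).and (eventually_ge_atTop 1))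
  refine ⟨min (u / 2) (1 / 2), lt_min (by positivity) (by norm_num), N,
    fun n hn x hx hxx => ?_⟩
  obtain ⟨hwM, hn1⟩ := hN n hn
  have hn0 : (0 : ℝ) < n := by exact_mod_cast (by omega : 0 < n)
  obtain ⟨w, hw⟩ : ∃ w : ℝ, w = (n : ℝ) ^ (1 / 1008 : ℝ) := ⟨_, rfl⟩
  rw [← hw] at hwM
  have hw2 : 2 ≤ w := by linarith
  have hw1 : 1 ≤ w := by linarith
  have hw0 : 0 < w := by linarith
  obtain ⟨z, hz⟩ : ∃ z : ℝ, z = w ^ 4 := ⟨_, rfl⟩
  have hzn : (n : ℝ) = z ^ 252 := by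
    have e : z = (n : ℝ) ^ (1 / 252 : ℝ) := by
      rw [hz, hw, ← Real.rpow_natCast, ← Real.rpow_mul hn0.le]
      norm_num
    rw [e, ← Real.rpow_natCast, ← Real.rpow_mul hn0.le]
    norm_num
  have hwz : w ≤ z := by rw [hz]; exact le_self_pow₀ hw1 (by norm_num)
  have hz2 : 2 ≤ z := by linarith
  have hz1 : 1 ≤ z := by linarith
  have hz0 : 0 < z := by linarith
  have hzA : 40 * A / ε ≤ z := by linarith
  have hz7 : (n : ℝ) ^ (-(1 / 36) : ℝ) = 1 / z ^ 7 := by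
    have e : (1 / 1008 : ℝ) * ((28 : ℕ) : ℝ) = 1 / 36 := by norm_num
    have e2 : z ^ 7 = w ^ 28 := by rw [hz, ← pow_mul]
    rw [e2, Real.rpow_neg hn0.le, hw, ← Real.rpow_natCast, ← Real.rpow_mul hn0.le, e,
      ← one_div ((n : ℝ) ^ (1 / 36 : ℝ))]
  rw [hz7] at hx
  have hxu : x < u := by
    have := hxx.trans (min_le_left _ _)
    linarith
  have hx2 : x ≤ 1 / 2 := hxx.trans (min_le_right _ _)
  have hx0 : 0 < x := lt_of_lt_of_le (by positivity) hx
  have hx5 : 0 < x ^ 5 := by positivity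
  have hup := shfin_up (by linarith : 0 < β) hn1 hx0 (by linarith)
  have hVx := abs_le.1 (hV x hx0 hxu)
  rw [shfin_pv, abs_le]
  constructor
  · -- the lower bound
    obtain ⟨K, d, hd1, hdK, hK1, hK2, hdx5, hdx⟩ := rtsh_pt hz2 hx hx2
    have hK0 : (0 : ℝ) < (K : ℝ) + 1 := by positivity
    have h3 := hdn K d hd1 hdK n hn1
    have herr := rtsh_err hC hε hw1 (by linarith) hz hzn hx hK1 hK2
    obtain ⟨R, hR⟩ : ∃ R : ℝ, R = C * (1 + Real.log ((K : ℝ) + 1)) *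
      (n / ((K : ℝ) + 1) + ((K : ℝ) + 1) ^ 6 * (1 + Real.log n)) := ⟨_, rfl⟩
    rw [← hR] at h3 herr
    clear hR hzn hz hw hM hM1 hM2 hwM hK1 hK2
    have hd0 : 0 < gm K d := by
      have : (0 : ℝ) < d := by exact_mod_cast hd1
      unfold gm
      positivity
    obtain ⟨y, hy⟩ : ∃ y : ℝ, y = gm K d := ⟨_, rfl⟩
    rw [← hy] at h3 hdx hd0 hdx5
    have hVy := (abs_le.1 (hV y hd0 (lt_of_le_of_lt hdx hxu))).1
    have hmono := Ld.cor_mono (μ := disorder n) (X := freeEnergy n β)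
      (fun x => Sx.integrable_exp n β x) hd0 hdx
    have hy5 : y ^ 5 ≤ x ^ 5 := pow_le_pow_left₀ hd0.le hdx 5
    have hz21 : 2 / z ≤ 1 := by
      rw [div_le_one hz0]
      exact hz2
    have hA5 : A * x ^ 5 - ε / 4 * x ^ 5 ≤ A * y ^ 5 := by
      have h4 : (x * (1 - 2 / z)) ^ 5 ≤ y ^ 5 :=
        pow_le_pow_left₀ (mul_nonneg hx0.le (by linarith)) hdx5 5
      have h5 : 1 + ((5 : ℕ) : ℝ) * (-(2 / z)) ≤ (1 + -(2 / z)) ^ 5 :=
        one_add_mul_le_pow (by linarith) 5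
      have h6 : x ^ 5 * (1 - 10 / z) ≤ y ^ 5 := by
        refine le_trans ?_ h4
        rw [mul_pow]
        refine mul_le_mul_of_nonneg_left ?_ hx5.le
        have e1 : 1 + ((5 : ℕ) : ℝ) * (-(2 / z)) = 1 - 10 / z := by push_cast; ring
        have e2 : (1 + -(2 / z)) ^ 5 = (1 - 2 / z) ^ 5 := by ring
        rw [e1, e2] at h5
        exact h5
      have h7 : A * (10 / z) ≤ ε / 4 := by
        have h8 : 40 * A / ε ≤ z := hzA
        rw [div_le_iff₀ hε] at h8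
        rw [mul_div_assoc', div_le_iff₀ hz0]
        linarith
      have h8 := mul_le_mul_of_nonneg_left h6 hA.le
      have h9 := mul_le_mul_of_nonneg_right h7 hx5.le
      have e : A * (x ^ 5 * (1 - 10 / z)) = A * x ^ 5 - A * (10 / z) * x ^ 5 := by ring
      rw [e] at h8
      linarith
    have hε5 : ε / 4 * y ^ 5 ≤ ε / 4 * x ^ 5 := mul_le_mul_of_nonneg_left hy5 (by positivity)
    have h6 : (n : ℝ) * (Real.log 2 + P0 β) + n * (A * x ^ 5) - n * (3 / 4 * ε * x ^ 5) ≤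
        1 / x * Real.log (∫ g, Real.exp (x * freeEnergy n β g) ∂(disorder n)) := by
      have h7 : (n : ℝ) * (P0 β + A * x ^ 5 - ε / 2 * x ^ 5) ≤ n * Vx β y :=
        mul_le_mul_of_nonneg_left (by linarith) hn0.le
      have h8 : (n : ℝ) * (Real.log 2 + Vx β y) = n * Real.log 2 + n * Vx β y := by ring
      rw [h8] at h3
      nlinarith
    have h9 := mul_le_mul_of_nonneg_left h6 hx0.le
    have e1 : x * (1 / x * Real.log (∫ g, Real.exp (x * freeEnergy n β g) ∂(disorder n))) =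
        Real.log (∫ g, Real.exp (x * freeEnergy n β g) ∂(disorder n)) := by
      field_simp
    rw [e1] at h9
    have h10 : 0 ≤ ε * n * x ^ 6 := by positivity
    have e2 : x * (n * (Real.log 2 + P0 β) + n * (A * x ^ 5) - n * (3 / 4 * ε * x ^ 5)) =
        x * (n * (Real.log 2 + P0 β)) + A * n * x ^ 6 - 3 / 4 * (ε * n * x ^ 6) := by ring
    rw [e2] at h9
    linarith
  · -- the upper bound
    have h3 : x * n * (Real.log 2 + Vx β x) ≤
        x * n * (Real.log 2 + (P0 β + A * x ^ 5 + ε / 4 * x ^ 5)) :=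
      mul_le_mul_of_nonneg_left (by linarith) (by positivity)
    have h10 : 0 ≤ ε * n * x ^ 6 := by positivity
    have e2 : x * n * (Real.log 2 + (P0 β + A * x ^ 5 + ε / 4 * x ^ 5)) =
        x * (n * (Real.log 2 + P0 β)) + A * n * x ^ 6 + 1 / 4 * (ε * n * x ^ 6) := by ring
    rw [e2] at h3
    linarith

/-- **The sharp upper tail, uniformly for `n ^ (-1/8) ≤ s ≤ s₀`.** -/
theorem rt_sharp_ldp {β A : ℝ} (hA : 0 < A)
    (H : ∀ ε : ℝ, 0 < ε → ∃ x₀ : ℝ, 0 < x₀ ∧ ∃ N : ℕ, ∀ n : ℕ, N ≤ n → ∀ x : ℝ,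
      (n : ℝ) ^ (-(1 / 36) : ℝ) ≤ x → x ≤ x₀ →
      |Real.log (∫ g, Real.exp (x * freeEnergy n β g) ∂(disorder n)) - x * (n * Sx.pv β) -
        A * n * x ^ 6| ≤ ε * n * x ^ 6) :
    ∀ ε : ℝ, 0 < ε → ∃ s₀ : ℝ, 0 < s₀ ∧ ∃ N : ℕ, ∀ n : ℕ, N ≤ n → ∀ s : ℝ,
      (n : ℝ) ^ (-(1 / 8) : ℝ) ≤ s → s ≤ s₀ →
      |Real.log ((disorder n).real {g | n * (Sx.pv β + s) ≤ freeEnergy n β g}) +
        5 / 6 * (6 * A) ^ (-(1 / 5) : ℝ) * n * s ^ (6 / 5 : ℝ)| ≤
          ε * n * s ^ (6 / 5 : ℝ) :=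
  ldp_abs_u (μ := fun n => disorder n) (X := fun n g => freeEnergy n β g) (a := 1 / 36)
    (b := 1 / 8) (fun _ => Ub.measurable_free β) (fun n x => Sx.integrable_exp n β x) hA
    (by norm_num) (by norm_num) H

end Vale.Agent.P146.Sh
end

section

/-!
# P146, Rt: the sharp constants with the better rate
-/

open MeasureTheory ProbabilityTheory Filter Topology Set

namespace Vale.Agent.P146.Sh

open Vale.Agent.P157.Par
open Vale.Agent.P146.Gap
open Vale.Agent.P146.Pw2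
open Vale.Agent.P146.Lb
open Vale.Agent.P367.Cl

/-- the lower bound at a point of the grid -/
theorem rtsh_dn {β : ℝ} (hβ : 1 < β) : ∃ C : ℝ, 0 ≤ C ∧ ∀ K d : ℕ, 1 ≤ d → d ≤ K →
    ∀ n : ℕ, 1 ≤ n → n * (Real.log 2 + Vx β (gm K d)) ≤
      1 / gm K d * Real.log (∫ g, Real.exp (gm K d * freeEnergy n β g) ∂(disorder n)) +
        C * (1 + Real.log ((K : ℝ) + 1)) *
          (n / ((K : ℝ) + 1) + ((K : ℝ) + 1) ^ 6 * (1 + Real.log n)) := by
  obtain ⟨C, hC, h⟩ := Ub.Ld.grate (β := β) (by linarith)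
  refine ⟨C, hC, fun K d hd1 hd n hn => ?_⟩
  have h1 := h K d (Vx β (gm K d)) hd1 hd (fun q hq hq1 hq0 => by
    rw [Ld.cor_me]
    have hb : 0 < β := by linarith
    have hr : BPath β K (fun l => β ^ 2 * q l) := by
      refine ⟨?_, ⟨?_, ?_⟩, ?_⟩
      · simp only
        rw [hq0 0 (by omega), mul_zero]
      · simp only
        have := hq.1
        positivity
      · intro l hl
        simp only
        have := hq.2 l hl
        gcongr
      · simp only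
        have h2 : 0 ≤ β ^ 2 := by positivity
        nlinarith
    have h2 := vx_le hβ hd1 hd hr (fun l hl => by rw [hq0 l hl, mul_zero])
    rw [← gap2_SKr_eq hb] at h2
    have e : (fun l => β ^ 2 * q l / β ^ 2) = q := by
      funext l
      field_simp
    simp only [e] at h2
    exact h2) n hn
  rw [Ld.cor_me] at h1
  exact h1

/-- **The sharp constant of the exponential moments, uniformly in `x ≥ n ^ (-1/36)`.** -/
theorem rt_sharp_moment {β : ℝ} (hβ : 1 < β) {A : ℝ} (hA : 0 < A)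
    (hlim : Tendsto (fun x => (Vx β x - P0 β) / x ^ 5) (𝓝[>] 0) (𝓝 A)) {ε : ℝ} (hε : 0 < ε) :
    ∃ x₀ : ℝ, 0 < x₀ ∧ ∃ N : ℕ, ∀ n ≥ N, ∀ x : ℝ, (n : ℝ) ^ (-(1 / 36) : ℝ) ≤ x → x ≤ x₀ →
      |Real.log (∫ g, Real.exp (x * freeEnergy n β g) ∂(disorder n)) - x * (n * Sx.pv β) -
        A * n * x ^ 6| ≤ ε * n * x ^ 6 := by
  obtain ⟨C, hC, hdn⟩ := rtsh_dn hβ
  exact rtsh_moment_of hβ hA hlim hC hdn hε

end Vale.Agent.P146.Sh
end

section

/-!
# P146, Rt: the rate of the mean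
-/

open MeasureTheory ProbabilityTheory Filter Topology

namespace Vale.Agent.P146.Sx

open Vale.Agent.P157.Par (Path Exponents)
open Vale.Agent.P146.Sk (PSK)
open Vale.Agent.P146.Ub

/-- `rt_low` from `grate` -/
theorem rt_low_of {β : ℝ} (hβ : 1 ≤ β) (hg : ∃ C : ℝ, 0 ≤ C ∧ ∀ (K d : ℕ) (Lb : ℝ),
    1 ≤ d → d ≤ K →
    (∀ q : ℕ → ℝ, Path K q → q K ≤ 1 → (∀ l < d, q l = 0) → Lb ≤ PSK β K (me K) q) →
    ∀ n : ℕ, 1 ≤ n →
      n * (Real.log 2 + Lb) ≤
        1 / me K d * Real.log (∫ g, Real.exp (me K d * freeEnergy n β g) ∂(disorder n)) +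
          C * (1 + Real.log ((K : ℝ) + 1)) *
            (n / ((K : ℝ) + 1) + ((K : ℝ) + 1) ^ 6 * (1 + Real.log n))) :
    ∃ C : ℝ, 1 ≤ C ∧ ∀ n : ℕ, 1 ≤ n →
    n * pv β ≤ ∫ g, freeEnergy n β g ∂(disorder n) +
      C * (n : ℝ) ^ (6 / 7 : ℝ) * (1 + Real.log n) ^ 2 := by
  obtain ⟨C, hC0, hC⟩ := hg
  obtain ⟨C', hC'⟩ : ∃ C' : ℝ, C' = ∑ n ∈ Finset.range 128,
    |n * pv β - ∫ g, freeEnergy n β g ∂(disorder n)| := ⟨_, rfl⟩
  have hC'0 : 0 ≤ C' := by rw [hC']; exact Finset.sum_nonneg fun i _ => abs_nonneg _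
  refine ⟨1 + (4 * β ^ 2 + 3 * C) + C', by nlinarith [sq_nonneg β], ?_⟩
  intro n hn
  have hn1 : (1 : ℝ) ≤ n := by exact_mod_cast hn
  have hn0 : (0 : ℝ) ≤ n := by linarith
  have hlog : 0 ≤ Real.log n := Real.log_nonneg hn1
  obtain ⟨y, hy⟩ : ∃ y : ℝ, y = (n : ℝ) ^ (1 / 7 : ℝ) := ⟨_, rfl⟩
  have hy1 : 1 ≤ y := by rw [hy]; exact Real.one_le_rpow hn1 (by norm_num)
  have hy0 : 0 < y := by linarith
  have hy7 : y ^ 7 = n := by
    rw [hy, ← Real.rpow_natCast, ← Real.rpow_mul hn0]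
    norm_num
  have hy6 : (n : ℝ) ^ (6 / 7 : ℝ) = y ^ 6 := by
    rw [hy, ← Real.rpow_natCast, ← Real.rpow_mul hn0]
    norm_num
  rw [hy6]
  have hy61 : 1 ≤ y ^ 6 := one_le_pow₀ hy1
  have hl2 : 1 ≤ (1 + Real.log n) ^ 2 := one_le_pow₀ (by linarith)
  have hprod : 1 ≤ y ^ 6 * (1 + Real.log n) ^ 2 := by
    calc (1 : ℝ) = 1 * 1 := by norm_num
      _ ≤ _ := mul_le_mul hy61 hl2 zero_le_one (by linarith)
  rcases lt_or_ge y 2 with h2 | h2
  · -- small `n`
    have hlt : n < 128 := by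
      have h : (n : ℝ) < 128 := by
        rw [← hy7]
        calc y ^ 7 < 2 ^ 7 := pow_lt_pow_left₀ h2 hy0.le (by norm_num)
          _ = 128 := by norm_num
      exact_mod_cast h
    have h1 : |n * pv β - ∫ g, freeEnergy n β g ∂(disorder n)| ≤ C' := by
      rw [hC']
      exact Finset.single_le_sum
        (f := fun n : ℕ => |n * pv β - ∫ g, freeEnergy n β g ∂(disorder n)|)
        (fun i _ => abs_nonneg _) (Finset.mem_range.2 hlt)
    have h3 := (le_abs_self _).trans h1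
    have h4 : C' * 1 ≤ C' * (y ^ 6 * (1 + Real.log n) ^ 2) :=
      mul_le_mul_of_nonneg_left hprod hC'0
    have h5 : 0 ≤ (1 + (4 * β ^ 2 + 3 * C)) * (y ^ 6 * (1 + Real.log n) ^ 2) := by positivity
    have e : (1 + (4 * β ^ 2 + 3 * C) + C') * y ^ 6 * (1 + Real.log n) ^ 2 =
      (1 + (4 * β ^ 2 + 3 * C)) * (y ^ 6 * (1 + Real.log n) ^ 2) +
        C' * (y ^ 6 * (1 + Real.log n) ^ 2) := by ring
    rw [e]
    linarith
  · -- the main case
    obtain ⟨L, hL⟩ : ∃ L : ℕ, L = ⌊y⌋₊ := ⟨_, rfl⟩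
    have hL2 : 2 ≤ L := by rw [hL]; exact Nat.le_floor (by exact_mod_cast h2)
    have hLy : (L : ℝ) ≤ y := by rw [hL]; exact Nat.floor_le hy0.le
    have hyL : y < L + 1 := by rw [hL]; exact Nat.lt_floor_add_one y
    obtain ⟨K, rfl⟩ : ∃ K : ℕ, L = K + 1 := ⟨L - 1, by omega⟩
    have hK1 : 1 ≤ K := by omega
    have hcast : ((K + 1 : ℕ) : ℝ) = (K : ℝ) + 1 := by push_cast; ring
    rw [hcast] at hLy hyL
    have hKr : (1 : ℝ) ≤ K := by exact_mod_cast hK1
    have hKp : (0 : ℝ) < (K : ℝ) + 1 := by linarith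
    have hme : me K 1 = 1 / ((K : ℝ) + 1) := by
      unfold me
      push_cast
      ring
    have h := hC K 1 (sInf (vals β)) le_rfl hK1 (fun q hq hq1 _ =>
      csInf_le (Ld.cor_bdd hβ) ⟨K, me K, q, by rw [Ld.cor_me]; exact Pw2.gm_exponents K, hq, hq1,
        rfl⟩) n hn
    rw [hme] at h
    have hx0 : (0 : ℝ) ≤ 1 / ((K : ℝ) + 1) := by positivity
    have hg2 := rt_gauss n β hx0
    have hg3 : 1 / (1 / ((K : ℝ) + 1)) *
        Real.log (∫ g, Real.exp (1 / ((K : ℝ) + 1) * freeEnergy n β g) ∂(disorder n)) ≤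
        ∫ g, freeEnergy n β g ∂(disorder n) + 2 * β ^ 2 * (n / ((K : ℝ) + 1)) := by
      have h1 := mul_le_mul_of_nonneg_left hg2 (by positivity : 0 ≤ 1 / (1 / ((K : ℝ) + 1)))
      refine h1.trans_eq ?_
      field_simp
    have hnL : (n : ℝ) / ((K : ℝ) + 1) ≤ 2 * y ^ 6 := by
      rw [div_le_iff₀ hKp, ← hy7]
      have h1 : y ≤ 2 * ((K : ℝ) + 1) := by linarith
      calc y ^ 7 = y ^ 6 * y := by ring
        _ ≤ y ^ 6 * (2 * ((K : ℝ) + 1)) := mul_le_mul_of_nonneg_left h1 (by positivity)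
        _ = _ := by ring
    have hL6 : ((K : ℝ) + 1) ^ 6 ≤ y ^ 6 := pow_le_pow_left₀ hKp.le hLy 6
    have hlogK : Real.log ((K : ℝ) + 1) ≤ Real.log n := by
      refine Real.log_le_log hKp (hLy.trans ?_)
      rw [← hy7]
      exact le_self_pow₀ hy1 (by norm_num)
    have hlogK0 : 0 ≤ Real.log ((K : ℝ) + 1) := Real.log_nonneg (by linarith)
    have h6 : (n : ℝ) / ((K : ℝ) + 1) + ((K : ℝ) + 1) ^ 6 * (1 + Real.log n) ≤
        3 * y ^ 6 * (1 + Real.log n) := by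
      have h1 : ((K : ℝ) + 1) ^ 6 * (1 + Real.log n) ≤ y ^ 6 * (1 + Real.log n) :=
        mul_le_mul_of_nonneg_right hL6 (by linarith)
      have h3 : 0 ≤ y ^ 6 * Real.log n := by positivity
      nlinarith
    have h7 : C * (1 + Real.log ((K : ℝ) + 1)) *
        (n / ((K : ℝ) + 1) + ((K : ℝ) + 1) ^ 6 * (1 + Real.log n)) ≤
        C * (1 + Real.log n) * (3 * y ^ 6 * (1 + Real.log n)) := by
      refine mul_le_mul ?_ h6 (by positivity) (by positivity)
      exact mul_le_mul_of_nonneg_left (by linarith) hC0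
    have h8 : 2 * β ^ 2 * (n / ((K : ℝ) + 1)) ≤ 4 * β ^ 2 * (y ^ 6 * (1 + Real.log n) ^ 2) := by
      have h1 : 2 * β ^ 2 * (n / ((K : ℝ) + 1)) ≤ 2 * β ^ 2 * (2 * y ^ 6) :=
        mul_le_mul_of_nonneg_left hnL (by positivity)
      have h3 : 4 * β ^ 2 * (y ^ 6 * 1) ≤ 4 * β ^ 2 * (y ^ 6 * (1 + Real.log n) ^ 2) :=
        mul_le_mul_of_nonneg_left (mul_le_mul_of_nonneg_left hl2 (by positivity)) (by positivity)
      linarith
    have h9 : 0 ≤ (1 + C') * (y ^ 6 * (1 + Real.log n) ^ 2) := by positivity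
    have e : (1 + (4 * β ^ 2 + 3 * C) + C') * y ^ 6 * (1 + Real.log n) ^ 2 =
      4 * β ^ 2 * (y ^ 6 * (1 + Real.log n) ^ 2) +
        C * (1 + Real.log n) * (3 * y ^ 6 * (1 + Real.log n)) +
        (1 + C') * (y ^ 6 * (1 + Real.log n) ^ 2) := by ring
    rw [e]
    have e2 : (n : ℝ) * pv β = n * (Real.log 2 + sInf (vals β)) := rfl
    rw [e2]
    linarith

end Vale.Agent.P146.Sx
end

section

/-!
# P146, Rt: the rate of the mean
-/

open MeasureTheory ProbabilityTheory Filter Topology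

namespace Vale.Agent.P146.Sx

open Vale.Agent.P157.Par (Path Exponents)
open Vale.Agent.P146.Sk (PSK)
open Vale.Agent.P146.Ub

theorem rt_low {β : ℝ} (hβ : 1 ≤ β) : ∃ C : ℝ, 1 ≤ C ∧ ∀ n : ℕ, 1 ≤ n →
    n * pv β ≤ ∫ g, freeEnergy n β g ∂(disorder n) +
      C * (n : ℝ) ^ (6 / 7 : ℝ) * (1 + Real.log n) ^ 2 :=
  rt_low_of hβ (Ub.Ld.grate (by linarith))

end Vale.Agent.P146.Sx
end

section

/-!
# P146, Rt: exponential moments and variance
-/

open MeasureTheory ProbabilityTheory Filter Topology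

namespace Vale.Agent.P146.Sx

open Vale.Agent.P157.Par (Path Exponents)
open Vale.Agent.P146.Sk (PSK)
open Vale.Agent.P146.Ub

theorem rt_moment {β : ℝ} (hβ : 1 ≤ β) : ∃ C : ℝ, 1 ≤ C ∧
    (∀ n : ℕ, 1 ≤ n → ∀ x : ℝ, 0 < x → x ≤ 1 →
      Real.log (∫ g, Real.exp (x * freeEnergy n β g) ∂(disorder n)) ≤
        x * (n * pv β) + C * n * x ^ 6) ∧
    (∀ n : ℕ, 1 ≤ n → ∫ g, freeEnergy n β g ∂(disorder n) ≤ n * pv β) ∧
    (∀ n : ℕ, 1 ≤ n → n * pv β ≤ ∫ g, freeEnergy n β g ∂(disorder n) +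
      C * (n : ℝ) ^ (7 / 8 : ℝ)) :=
  rt_moment_of hβ (rt_low hβ)

theorem rt_var {β : ℝ} (hβ : 1 ≤ β) : ∃ C : ℝ, 1 ≤ C ∧ ∀ n : ℕ, 1 ≤ n →
    Var[freeEnergy n β; disorder n] ≤ C * (n : ℝ) ^ (8 / 9 : ℝ) :=
  rt_var_of hβ (rt_low hβ)

end Vale.Agent.P146.Sx
end

section

/-!
# P146, Rt: the lower tail of the free energy
-/

open MeasureTheory ProbabilityTheory Filter Topology

namespace Vale.Agent.P146.Sx

/-- `P(F_n ≤ E F_n - t) ≤ exp (-a t² / n^(19/20))` -/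
theorem rt_low_dev {β : ℝ} (hβ : 1 ≤ β) : ∃ a : ℝ, 0 < a ∧ ∀ n : ℕ, 1 ≤ n → ∀ t : ℝ, 0 ≤ t →
    (disorder n).real {g | freeEnergy n β g ≤ ∫ g, freeEnergy n β g ∂(disorder n) - t} ≤
      Real.exp (-(a * t ^ 2 / (n : ℝ) ^ (19 / 20 : ℝ))) :=
  rt_low_dev_of hβ (rt_var hβ)

end Vale.Agent.P146.Sx
end

section

/-!
# P146, Rt: exponential concentration at the scale `n^(9/20)`, over the rate and the variance
-/

open MeasureTheory ProbabilityTheory

namespace Vale.Agent.P146.Sx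

open Vale.Agent.P146.Ub.Cv
open Vale.Agent.P146.Ce

/-- the powers of `v = n^(1/420)` -/
theorem rtce_pow {n : ℕ} (hn : 1 ≤ n) {v : ℝ} (hv : v = (n : ℝ) ^ (1 / 420 : ℝ)) :
    1 ≤ v ∧ v ^ 420 = n ∧ (n : ℝ) ^ (6 / 7 : ℝ) = v ^ 360 ∧
      (n : ℝ) ^ (9 / 20 : ℝ) = v ^ 189 ∧ (n : ℝ) ^ (8 / 9 : ℝ) ≤ v ^ 378 ∧
      1 + Real.log n ≤ 421 * v := by
  have hn1 : (1 : ℝ) ≤ n := by exact_mod_cast hn
  have hn0 : (0 : ℝ) < n := by linarith
  have hp : ∀ k : ℕ, v ^ k = (n : ℝ) ^ ((k : ℝ) / 420) := by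
    intro k
    rw [hv, ← Real.rpow_natCast, ← Real.rpow_mul hn0.le]
    congr 1
    ring
  have hv1 : 1 ≤ v := by rw [hv]; exact Real.one_le_rpow hn1 (by norm_num)
  refine ⟨hv1, ?_, ?_, ?_, ?_, ?_⟩
  · rw [hp]; norm_num
  · rw [hp]; norm_num
  · rw [hp]; norm_num
  · rw [hp]
    exact Real.rpow_le_rpow_of_exponent_le hn1 (by norm_num)
  · have h1 := Real.log_le_rpow_div hn0.le (show (0 : ℝ) < 1 / 420 by norm_num)
    have h3 : (n : ℝ) ^ (1 / 420 : ℝ) / (1 / 420) = 420 * (n : ℝ) ^ (1 / 420 : ℝ) := by ring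
    rw [h3, ← hv] at h1
    linarith

/-- the upper tail -/
theorem rtce_up {β : ℝ} (hβ : 1 ≤ β)
    (hlo : ∃ C : ℝ, 1 ≤ C ∧ ∀ n : ℕ, 1 ≤ n → n * pv β ≤ ∫ g, freeEnergy n β g ∂(disorder n) +
      C * (n : ℝ) ^ (6 / 7 : ℝ) * (1 + Real.log n) ^ 2)
    (hmo : ∃ C : ℝ, 1 ≤ C ∧ ∀ n : ℕ, 1 ≤ n → ∀ x : ℝ, 0 < x → x ≤ 1 →
      Real.log (∫ g, Real.exp (x * freeEnergy n β g) ∂(disorder n)) ≤
        x * (n * pv β) + C * n * x ^ 6) : ∃ D : ℝ, 0 < D ∧ ∀ n : ℕ, 1 ≤ n → ∀ s : ℝ, 0 ≤ s →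
    (disorder n).real {g | ∫ g, freeEnergy n β g ∂(disorder n) + s * (n : ℝ) ^ (9 / 20 : ℝ) ≤
      freeEnergy n β g} ≤ Real.exp (1 - s / D) := by
  classical
  obtain ⟨C₁, hC₁, hlow⟩ := hlo
  obtain ⟨C₂, hC₂, hmom⟩ := hmo
  obtain ⟨C, hC⟩ : ∃ C : ℝ, C = C₁ * 421 ^ 2 + C₂ := ⟨_, rfl⟩
  have hC1 : 1 ≤ C := by rw [hC]; linarith
  set K : ℝ := β ^ 2 / 2 + 7578 * C with hK
  have hKC : 7578 * C ≤ K := by rw [hK]; nlinarith [sq_nonneg β]
  have hK0 : 0 < K := by linarith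
  refine ⟨√K, Real.sqrt_pos.2 hK0, fun n hn s hs => ?_⟩
  have hn1 : (1 : ℝ) ≤ n := by exact_mod_cast hn
  have hn0 : (0 : ℝ) < n := by linarith
  obtain ⟨v, hv⟩ : ∃ v : ℝ, v = (n : ℝ) ^ (1 / 420 : ℝ) := ⟨_, rfl⟩
  obtain ⟨hv1, hvn, e35, e49, -, hlog⟩ := rtce_pow hn hv
  have hv0 : 0 < v := by linarith
  have hlog0 : 0 ≤ Real.log n := Real.log_nonneg hn1
  set E : ℝ := ∫ g, freeEnergy n β g ∂(disorder n) with hE
  have hlow' : n * pv β ≤ E + C₁ * 421 ^ 2 * v ^ 362 := by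
    have h1 := hlow n hn
    rw [← hE, e35] at h1
    refine h1.trans ?_
    have h2 : (1 + Real.log n) ^ 2 ≤ (421 * v) ^ 2 := pow_le_pow_left₀ (by linarith) hlog 2
    have h3 : C₁ * v ^ 360 * (1 + Real.log n) ^ 2 ≤ C₁ * v ^ 360 * (421 * v) ^ 2 :=
      mul_le_mul_of_nonneg_left h2 (by positivity)
    have e : C₁ * v ^ 360 * (421 * v) ^ 2 = C₁ * 421 ^ 2 * v ^ 362 := by ring
    linarith
  set x : ℝ := 1 / (3 * v ^ 12) with hx
  have hx0 : 0 < x := by positivity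
  have hL : ∀ a, 0 ≤ a → 2 * a ≤ x → ∫ g, Real.exp (2 * (a + x) * freeEnergy n β g) ∂(gpi (Pair n)) ≤
      Real.exp (2 * (a + x) * (∫ g, freeEnergy n β g ∂(gpi (Pair n))) + 2 * C * v ^ 350) := by
    intro a ha hax
    obtain ⟨y, hy⟩ : ∃ y : ℝ, y = 2 * (a + x) := ⟨_, rfl⟩
    have hy0 : 0 < y := by rw [hy]; positivity
    have hyx : y ≤ 1 / v ^ 12 := by
      have h3 : 3 * x = 1 / v ^ 12 := by rw [hx]; field_simp
      rw [hy, ← h3]
      linarith
    have hy1 : y ≤ 1 := by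
      refine hyx.trans ?_
      rw [div_le_one (by positivity)]
      exact one_le_pow₀ hv1
    have h1 := hmom n hn y hy0 hy1
    have hpos : 0 < ∫ g, Real.exp (y * freeEnergy n β g) ∂(disorder n) :=
      mgf_pos (μ := disorder n) (X := freeEnergy n β) (Sx.integrable_exp n β y)
    rw [Real.log_le_iff_le_exp hpos] at h1
    rw [← hy]
    change ∫ g, Real.exp (y * freeEnergy n β g) ∂(disorder n) ≤ Real.exp (y * E + 2 * C * v ^ 350)
    refine h1.trans (Real.exp_le_exp.2 ?_)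
    have h2 : y * (n * pv β) ≤ y * (E + C₁ * 421 ^ 2 * v ^ 362) :=
      mul_le_mul_of_nonneg_left hlow' hy0.le
    have h3 : y * v ^ 362 ≤ v ^ 350 := by
      have h4 : y * v ^ 362 ≤ 1 / v ^ 12 * v ^ 362 :=
        mul_le_mul_of_nonneg_right hyx (by positivity)
      refine h4.trans (le_of_eq ?_)
      field_simp
    have h5 : (n : ℝ) * y ^ 6 ≤ v ^ 350 := by
      have h6 : y ^ 6 ≤ (1 / v ^ 12) ^ 6 := pow_le_pow_left₀ hy0.le hyx 6
      have h7 : (n : ℝ) * y ^ 6 ≤ n * (1 / v ^ 12) ^ 6 := mul_le_mul_of_nonneg_left h6 hn0.le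
      have h8 : n * (1 / v ^ 12) ^ 6 = v ^ 348 := by
        rw [← hvn]
        field_simp
      have h9 : v ^ 348 ≤ v ^ 350 := pow_le_pow_right₀ hv1 (by norm_num)
      linarith
    have h8 := mul_le_mul_of_nonneg_left h3 (by positivity : (0 : ℝ) ≤ C₁ * 421 ^ 2)
    have h9 := mul_le_mul_of_nonneg_left h5 (by linarith : (0 : ℝ) ≤ C₂)
    have e1 : y * (E + C₁ * 421 ^ 2 * v ^ 362) = y * E + C₁ * 421 ^ 2 * (y * v ^ 362) := by ring
    have e2 : C₂ * n * y ^ 6 = C₂ * (n * y ^ 6) := by ring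
    rw [e1] at h2
    rw [e2]
    have h10 : 0 ≤ v ^ 350 := by positivity
    have e3 : 2 * C * v ^ 350 = 2 * (C₁ * 421 ^ 2 * v ^ 350) + 2 * (C₂ * v ^ 350) := by
      rw [hC]; ring
    have h11 : 0 ≤ C₁ * 421 ^ 2 * v ^ 350 := by positivity
    have h12 : 0 ≤ C₂ * v ^ 350 := by positivity
    rw [e3]
    linarith
  have hV : β ^ 2 * n / 2 * (1 / n) + 2 * C * v ^ 350 / x ^ 2 * (-Real.log (1 / n)) ≤
      K * v ^ 378 := by
    have e1 : β ^ 2 * n / 2 * (1 / n) = β ^ 2 / 2 := by field_simp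
    have e2 : 2 * C * v ^ 350 / x ^ 2 = 18 * C * v ^ 374 := by
      rw [hx]; field_simp; ring
    have e3 : -Real.log (1 / n) = Real.log n := by
      rw [one_div, Real.log_inv, neg_neg]
    rw [e1, e2, e3]
    have h1 : 18 * C * v ^ 374 * Real.log n ≤ 18 * C * v ^ 374 * (421 * v) :=
      mul_le_mul_of_nonneg_left (by linarith) (by positivity)
    have h2 : β ^ 2 / 2 ≤ β ^ 2 / 2 * v ^ 378 :=
      le_mul_of_one_le_right (by positivity) (one_le_pow₀ hv1)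
    have h3 : 18 * C * v ^ 374 * (421 * v) ≤ 7578 * C * v ^ 378 := by
      have h4 : v ^ 375 ≤ v ^ 378 := pow_le_pow_right₀ hv1 (by norm_num)
      have h5 := mul_le_mul_of_nonneg_left h4 (by positivity : 0 ≤ 7578 * C)
      have e : 18 * C * v ^ 374 * (421 * v) = 7578 * C * v ^ 375 := by ring
      linarith
    have e4 : K * v ^ 378 = β ^ 2 / 2 * v ^ 378 + 7578 * C * v ^ 378 := by
      rw [hK]; ring
    rw [e4]
    linarith
  have hVx : 1 ≤ K * v ^ 378 * x ^ 2 := by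
    have e1 : K * v ^ 378 * x ^ 2 = K / 9 * v ^ 354 := by
      rw [hx]; field_simp; ring
    rw [e1]
    have h1 : (1 : ℝ) ≤ v ^ 354 := one_le_pow₀ hv1
    have h2 : 1 ≤ K / 9 := by linarith
    nlinarith
  have h := up_exp (reg_freeEnergy n β) (lin_freeEnergy n β) (Lt.lt_lin_grad n β)
    (tangent_freeEnergy n β) (sum_gradF_sq n β) hx0 (by positivity) hL
    (u := 1 / n) (by positivity) (by rw [div_le_one hn0]; exact hn1) hV (by positivity) hVx
    (t := s / √K) (by positivity)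
  have e : s / √K * √(K * v ^ 378) = s * (n : ℝ) ^ (9 / 20 : ℝ) := by
    have hsK : 0 < √K := Real.sqrt_pos.2 hK0
    have e1 : √(K * v ^ 378) = √K * v ^ 189 := by
      rw [Real.sqrt_mul hK0.le]
      congr 1
      rw [show v ^ 378 = (v ^ 189) ^ 2 by ring]
      exact Real.sqrt_sq (by positivity)
    rw [e1, e49]
    field_simp
  rw [e] at h
  exact h

/-- the lower tail -/
theorem rtce_dn {β : ℝ} (hva : ∃ C : ℝ, 1 ≤ C ∧ ∀ n : ℕ, 1 ≤ n →
    Var[freeEnergy n β; disorder n] ≤ C * (n : ℝ) ^ (8 / 9 : ℝ)) :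
    ∃ D : ℝ, 0 < D ∧ ∀ n : ℕ, 1 ≤ n → ∀ s : ℝ, 0 ≤ s →
    (disorder n).real {g | freeEnergy n β g ≤
      ∫ g, freeEnergy n β g ∂(disorder n) - s * (n : ℝ) ^ (9 / 20 : ℝ)} ≤
        2 * Real.exp (-(s / D)) := by
  classical
  obtain ⟨K, hK1, hC⟩ := hva
  have hK0 : 0 < K := by positivity
  refine ⟨4 * √K, by positivity, fun n hn s hs => ?_⟩
  have hn1 : (1 : ℝ) ≤ n := by exact_mod_cast hn
  have hn0 : (0 : ℝ) < n := by linarith
  obtain ⟨v, hv⟩ : ∃ v : ℝ, v = (n : ℝ) ^ (1 / 420 : ℝ) := ⟨_, rfl⟩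
  obtain ⟨hv1, hvn, -, e49, e44, hlog⟩ := rtce_pow hn hv
  have hv0 : 0 < v := by linarith
  have lF := lin_freeEnergy n β
  have hmem : MemLp (freeEnergy n β) 2 (disorder n) := by
    rw [memLp_two_iff_integrable_sq lF.cont.aestronglyMeasurable]
    exact (lF.dom.pow 2).integrable
  have hprob : IsProbabilityMeasure (disorder n) := by unfold disorder; infer_instance
  have hvar : Var[freeEnergy n β; disorder n] =
      ∫ g, freeEnergy n β g ^ 2 ∂(disorder n) - (∫ g, freeEnergy n β g ∂(disorder n)) ^ 2 := by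
    rw [variance_eq_sub hmem]
    rfl
  have hV := hC n hn
  rw [hvar] at hV
  have hV2 : ∫ g, freeEnergy n β g ^ 2 ∂(disorder n) - (∫ g, freeEnergy n β g ∂(disorder n)) ^ 2 ≤
      (√K * v ^ 189) ^ 2 := by
    refine hV.trans ?_
    rw [mul_pow, Real.sq_sqrt hK0.le]
    have h1 : K * (n : ℝ) ^ (8 / 9 : ℝ) ≤ K * v ^ 378 := mul_le_mul_of_nonneg_left e44 hK0.le
    refine h1.trans (le_of_eq ?_)
    ring
  have h := low_exp (G := gradF n β) lF (tangent_freeEnergy n β)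
    (σ := √K * v ^ 189) (by positivity) hV2 (t := s / √K) (by positivity)
  have hsK : 0 < √K := Real.sqrt_pos.2 hK0
  have e : s / √K * (√K * v ^ 189) = s * (n : ℝ) ^ (9 / 20 : ℝ) := by
    rw [e49]
    field_simp
  have e2 : s / √K / 4 = s / (4 * √K) := by field_simp
  rw [e, e2] at h
  exact h

/-- two-sided exponential concentration at the scale `n^(9/20)` -/
theorem rt_conc_of {β : ℝ} (hβ : 1 ≤ β)
    (hlo : ∃ C : ℝ, 1 ≤ C ∧ ∀ n : ℕ, 1 ≤ n → n * pv β ≤ ∫ g, freeEnergy n β g ∂(disorder n) +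
      C * (n : ℝ) ^ (6 / 7 : ℝ) * (1 + Real.log n) ^ 2)
    (hmo : ∃ C : ℝ, 1 ≤ C ∧ ∀ n : ℕ, 1 ≤ n → ∀ x : ℝ, 0 < x → x ≤ 1 →
      Real.log (∫ g, Real.exp (x * freeEnergy n β g) ∂(disorder n)) ≤
        x * (n * pv β) + C * n * x ^ 6)
    (hva : ∃ C : ℝ, 1 ≤ C ∧ ∀ n : ℕ, 1 ≤ n →
      Var[freeEnergy n β; disorder n] ≤ C * (n : ℝ) ^ (8 / 9 : ℝ)) :
    ∃ C a : ℝ, 1 ≤ C ∧ 0 < a ∧ ∀ n : ℕ, 1 ≤ n → ∀ t : ℝ,
    0 ≤ t → (disorder n).real {g | t * (n : ℝ) ^ (9 / 20 : ℝ) ≤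
      |freeEnergy n β g - ∫ g, freeEnergy n β g ∂(disorder n)|} ≤ C * Real.exp (-(a * t)) := by
  obtain ⟨D₁, hD₁, h1⟩ := rtce_up hβ hlo hmo
  obtain ⟨D₂, hD₂, h2⟩ := rtce_dn hva
  have he : 0 < Real.exp 1 := Real.exp_pos 1
  refine ⟨Real.exp 1 + 2, min (1 / D₁) (1 / D₂), by linarith, by positivity,
    fun n hn t ht => ?_⟩
  have hprob : IsProbabilityMeasure (disorder n) := by unfold disorder; infer_instance
  set E : ℝ := ∫ g, freeEnergy n β g ∂(disorder n) with hE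
  have hsub : {g | t * (n : ℝ) ^ (9 / 20 : ℝ) ≤ |freeEnergy n β g - E|} ⊆
      {g | E + t * (n : ℝ) ^ (9 / 20 : ℝ) ≤ freeEnergy n β g} ∪
        {g | freeEnergy n β g ≤ E - t * (n : ℝ) ^ (9 / 20 : ℝ)} := by
    intro g hg
    have hg' : t * (n : ℝ) ^ (9 / 20 : ℝ) ≤ |freeEnergy n β g - E| := hg
    rcases le_abs.1 hg' with h | h
    · left
      show E + t * (n : ℝ) ^ (9 / 20 : ℝ) ≤ freeEnergy n β g
      linarith
    · right
      show freeEnergy n β g ≤ E - t * (n : ℝ) ^ (9 / 20 : ℝ)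
      linarith
  refine (measureReal_mono hsub).trans ((measureReal_union_le _ _).trans ?_)
  have h3 := h1 n hn t ht
  have h4 := h2 n hn t ht
  rw [← hE] at h3 h4
  have h5 : Real.exp (1 - t / D₁) ≤ Real.exp 1 * Real.exp (-(min (1 / D₁) (1 / D₂) * t)) := by
    rw [← Real.exp_add]
    refine Real.exp_le_exp.2 ?_
    have := mul_le_mul_of_nonneg_right (min_le_left (1 / D₁) (1 / D₂)) ht
    have e : 1 / D₁ * t = t / D₁ := by ring
    linarith
  have h6 : 2 * Real.exp (-(t / D₂)) ≤ 2 * Real.exp (-(min (1 / D₁) (1 / D₂) * t)) := by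
    refine mul_le_mul_of_nonneg_left (Real.exp_le_exp.2 ?_) (by norm_num)
    have := mul_le_mul_of_nonneg_right (min_le_right (1 / D₁) (1 / D₂)) ht
    have e : 1 / D₂ * t = t / D₂ := by ring
    linarith
  calc _ ≤ Real.exp (1 - t / D₁) + 2 * Real.exp (-(t / D₂)) := add_le_add h3 h4
    _ ≤ Real.exp 1 * Real.exp (-(min (1 / D₁) (1 / D₂) * t)) +
        2 * Real.exp (-(min (1 / D₁) (1 / D₂) * t)) := add_le_add h5 h6
    _ = _ := by ring

end Vale.Agent.P146.Sx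
end

section

/-!
# P146, Rt: exponential concentration at the scale `n^(9/20)`
-/

open MeasureTheory ProbabilityTheory

namespace Vale.Agent.P146.Sx

theorem rt_conc {β : ℝ} (hβ : 1 ≤ β) : ∃ C a : ℝ, 1 ≤ C ∧ 0 < a ∧ ∀ n : ℕ, 1 ≤ n → ∀ t : ℝ,
    0 ≤ t → (disorder n).real {g | t * (n : ℝ) ^ (9 / 20 : ℝ) ≤
      |freeEnergy n β g - ∫ g, freeEnergy n β g ∂(disorder n)|} ≤ C * Real.exp (-(a * t)) := by
  obtain ⟨C, hC, h, -, -⟩ := rt_moment hβ
  exact rt_conc_of hβ (rt_low hβ) ⟨C, hC, h⟩ (rt_var hβ)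

end Vale.Agent.P146.Sx
end
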